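import Vale.Agent.P148.R2.H400.Flip1
import Vale.Agent.P148.R2.H838.X2

/-!
# Row CAL: closing the class of the outer dart of the three class world

`T3` is a contraction of the plane triangulation `T` (same darts) which is injective off three
vertices, the corners of the face of `o`.  The class of `o` in `T3` is `o` itself and an arch
`d, ..., g`.  If the plane colouring `w` agrees with the colouring `σ3` of `T3` on everything which
the strand sees between `d` and `g`, and if a chain `H` of minority darts of `T` closes the arch and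
is joined to it on the minority side, then the arch and `H` form exactly one class of `T`.
-/

namespace Vale.Agent.P148.R2.H897

open Function Vale.Agent.P148.R2.H258 Vale.Agent.P148.R2.H871 Vale.Agent.P148.R2.H838

variable {V V3 D : Type*} {T : Tri V D} {T3 : Tri V3 D} {π : V → V3}

/-! ### the same strand portion in the two triangulations -/

/-- The two colourings agree on the strand of `d` up to time `N`. -/
def AgreeTo (T : Tri V D) (T3 : Tri V3 D) (w : V → Bool) (σ3 : V3 → Bool) (d : D) (N : ℕ) : Prop :=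
  ∀ n ≤ N, w (T.src ((T3.st σ3)^[n] d)) = σ3 (T3.src ((T3.st σ3)^[n] d)) ∧
    w (T.tgt ((T3.st σ3)^[n] d)) = σ3 (T3.tgt ((T3.st σ3)^[n] d))

theorem apex_col (hC : Contr T T3 π) {w : V → Bool} {σ3 : V3 → Bool} {e : D} (hb : T3.Bi σ3 e)
    (h1 : w (T.src (T3.st σ3 e)) = σ3 (T3.src (T3.st σ3 e)))
    (h2 : w (T.tgt (T3.st σ3 e)) = σ3 (T3.tgt (T3.st σ3 e))) :
    w (T.apex e) = σ3 (T3.apex e) := by
  by_cases hm : T3.Mi σ3 e
  · rw [T3.src_st_mi hm] at h1
    rw [T3.st_mi hm, hC.rev, hC.nxt, T.src_rev, T.tgt_nxt] at h1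
    exact h1
  · rw [T3.tgt_st_nmi hb hm] at h2
    rw [T3.st_nmi hb hm, hC.rev, hC.nxt, hC.nxt, T.tgt_rev, T.src_nxt2] at h2
    exact h2

theorem AgreeTo.iter (hC : Contr T T3 π) {w : V → Bool} {σ3 : V3 → Bool} {d : D} {N : ℕ}
    (hb : T3.Bi σ3 d) (h : AgreeTo T T3 w σ3 d N) :
    ∀ n ≤ N, (T.st w)^[n] d = (T3.st σ3)^[n] d := by
  intro n
  induction n with
  | zero => intro _; rfl
  | succ n ih =>
    intro hn
    have h1 := h n (by omega)
    have h2 := h (n + 1) hn
    have hb' : T3.Bi σ3 ((T3.st σ3)^[n] d) := (T3.bi_iter n).2 hb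
    rw [iterate_succ', comp_apply] at h2
    have h3 := apex_col hC hb' h2.1 h2.2
    rw [iterate_succ', comp_apply, ih (by omega), iterate_succ', comp_apply]
    refine (hC.st_eq ?_ ?_ ?_).symm
    · rw [← hC.src]; exact h1.1.symm
    · rw [← hC.tgt]; exact h1.2.symm
    · rw [← hC.apex]; exact h3.symm

theorem AgreeTo.bi {w : V → Bool} {σ3 : V3 → Bool} {d : D} {N : ℕ}
    (hb : T3.Bi σ3 d) (h : AgreeTo T T3 w σ3 d N) : T.Bi w d := by
  have h1 := h 0 (Nat.zero_le _)
  unfold Tri.Bi
  intro h2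
  apply hb
  rw [iterate_zero, id] at h1
  rw [← h1.1, ← h1.2, h2]

/-- The right walk of the strand, in the plane. -/
theorem AgreeTo.joined (hC : Contr T T3 π) {w : V → Bool} {σ3 : V3 → Bool} {d : D} {N : ℕ}
    (hb : T3.Bi σ3 d) (h : AgreeTo T T3 w σ3 d N) {n : ℕ} (hn : n ≤ N) :
    Joined T w (w (T.tgt d)) Set.univ (T.tgt d) (T.tgt ((T3.st σ3)^[n] d)) := by
  have hb' := h.bi hb
  refine ⟨Set.mem_univ _, rfl, T.rw' w d n, ?_, ?_⟩
  · rw [← h.iter hC hb n hn]; exact T.rw_walk hb' n
  · intro e he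
    obtain ⟨j, -, h2, h3⟩ := T.rw_mem hb' he
    rw [h2, h3, T.col_tgt_iter w, T.col_tgt_iter w]
    exact ⟨⟨rfl, Set.mem_univ _⟩, rfl, Set.mem_univ _⟩

/-! ### the closed class -/

/-- `π` is injective off the corners of the face of `o`. -/
def InjOff3 (π : V → V3) (T3 : Tri V3 D) (o : D) : Prop :=
  ∀ v v', π v = π v' → π v ≠ T3.src o → π v ≠ T3.tgt o → π v ≠ T3.apex o → v = v'

/-- Data of the closed class: `d` and `g` are the first and the last member of the class of `o`
other than `o`, `N` bounds the time from `d` to `g`, `H` is the closing chain. -/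
structure Closed3 (T : Tri V D) (T3 : Tri V3 D) (π : V → V3) (σ3 : V3 → Bool) (w : V → Bool)
    (o d g : D) (N : ℕ) (H : List D) : Prop where
  mi : T3.Mi σ3 o
  good : T3.apex o ≠ T3.src o
  inj : InjOff3 π T3 o
  memd : T3.Rel σ3 o d
  srcd : T3.src d = T3.apex o
  memg : T3.Rel σ3 o g
  apexg : T3.apex g = T3.src o
  span : ∀ e, T3.Rel σ3 o e → e ≠ o → ∃ n ≤ N, (T3.st σ3)^[n] d = e
  agree : AgreeTo T T3 w σ3 d N
  coly : w (T.apex g) = σ3 (T3.src o)
  miH : ∀ e ∈ H, T.Mi w e
  frz : ∀ e ∈ H, π (T.src e) = T3.src o ∨ π (T.src e) = T3.tgt o ∨ π (T.src e) = T3.apex o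
  nodup : (H.map T.src).Nodup
  notmem : T.src d ∉ H.map T.src
  chain : List.IsChain (fun a b => T.src b = T.apex a) (g :: H ++ [d])
  walk : ∀ e ∈ H, Joined T w (w (T.tgt d)) Set.univ (T.tgt d) (T.tgt e)

variable {σ3 : V3 → Bool} {w : V → Bool} {o d g : D} {N : ℕ} {H : List D}

/-- **Closing.** -/
theorem Closed3.rel_iff [Finite D] (hP : T.Planar) (hP3 : T3.Planar) (hC : Contr T T3 π)
    (h : Closed3 T T3 π σ3 w o d g N H) (e : D) :
    T.Rel w d e ↔ (T3.Rel σ3 o e ∧ e ≠ o) ∨ e ∈ H := by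
  obtain ⟨m, f, hm, hf0, hfm, hs, hinj, hrel, -⟩ := T3.class_cycle hP3 h.mi h.good
  -- at least two darts
  have hm2 : 2 ≤ m := by
    by_contra hc
    have h1 : m = 1 := by omega
    subst h1
    have h2 := hs 0 (by omega)
    rw [zero_add, hfm, hf0] at h2
    exact h.good h2.symm
  obtain ⟨p, rfl⟩ : ∃ p, m = p + 2 := ⟨m - 2, by omega⟩
  have hs1 : T3.src (f 1) = T3.apex o := by
    have := hs 0 (by omega); rwa [zero_add, hf0] at this
  have hd1 : d = f 1 := by
    obtain ⟨i, hi, h1⟩ := (hrel d).1 h.memd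
    rw [h1]
    have h2 := h.srcd
    rw [h1, ← hs1] at h2
    rw [hinj i hi 1 (by omega) h2]
  have hg1 : g = f (p + 1) := by
    obtain ⟨i, hi, h1⟩ := (hrel g).1 h.memg
    rcases Nat.lt_or_ge (i + 1) (p + 2) with h2 | h2
    · exfalso
      have h3 := hs i hi
      rw [← h1, h.apexg, ← hf0] at h3
      have := hinj (i + 1) h2 0 (by omega) h3
      omega
    · have h3 : i = p + 1 := by omega
      rw [h1, h3]
  have hmem : ∀ i < p + 2, T3.Rel σ3 o (f i) := fun i hi => (hrel _).2 ⟨i, hi, rfl⟩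
  have hne : ∀ i, 1 ≤ i → i < p + 2 → f i ≠ o := by
    intro i h1 h2 h3
    have := hinj i h2 0 (by omega) (by rw [h3, hf0])
    omega
  have hcolm : ∀ i < p + 2, σ3 (T3.src (f i)) = σ3 (T3.src o) ∧
      σ3 (T3.tgt (f i)) = σ3 (T3.tgt o) := by
    intro i hi
    obtain ⟨-, -, n, -, h2, -⟩ := hmem i hi
    rw [← h2, T3.col_src_iter σ3, T3.col_tgt_iter σ3]
    exact ⟨rfl, rfl⟩
  -- interior sources are free
  have hfree : ∀ i, 2 ≤ i → i < p + 2 → T3.src (f i) ≠ T3.src o ∧ T3.src (f i) ≠ T3.tgt o ∧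
      T3.src (f i) ≠ T3.apex o := by
    intro i h1 h2
    refine ⟨?_, ?_, ?_⟩
    · intro h3
      rw [← hf0] at h3
      have := hinj i h2 0 (by omega) h3
      omega
    · intro h3
      have h4 := (hcolm i h2).1
      rw [h3] at h4
      exact h.mi.1 h4.symm
    · intro h3
      rw [← hs1] at h3
      have := hinj i h2 1 (by omega) h3
      omega
  have hTs : ∀ i, 1 ≤ i → i < p + 1 → T.src (f (i + 1)) = T.apex (f i) := by
    intro i h1 h2
    obtain ⟨a1, a2, a3⟩ := hfree (i + 1) (by omega) (by omega)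
    rw [hC.src] at a1 a2 a3
    apply h.inj _ _ ?_ a1 a2 a3
    rw [← hC.src, ← hC.apex]
    exact hs i (by omega)
  -- colours in the plane
  have hcol : ∀ i, 1 ≤ i → i < p + 2 → w (T.src (f i)) = σ3 (T3.src o) ∧
      w (T.tgt (f i)) = σ3 (T3.tgt o) := by
    intro i h1 h2
    obtain ⟨n, hn, h3⟩ := h.span (f i) (hmem i h2) (hne i h1 h2)
    have h4 := h.agree n hn
    rw [h3] at h4
    rw [h4.1, h4.2]
    exact hcolm i h2
  have hca : ∀ i, 1 ≤ i → i < p + 2 → w (T.apex (f i)) = σ3 (T3.src o) := by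
    intro i h1 h2
    rcases Nat.lt_or_ge i (p + 1) with h3 | h3
    · rw [← hTs i h1 h3]; exact (hcol (i + 1) (by omega) (by omega)).1
    · have h4 : i = p + 1 := by omega
      rw [h4, ← hg1]; exact h.coly
  have hmi : ∀ i, 1 ≤ i → i < p + 2 → T.Mi w (f i) := by
    intro i h1 h2
    constructor
    · rw [(hcol i h1 h2).1, (hcol i h1 h2).2]; exact h.mi.1
    · rw [hca i h1 h2, (hcol i h1 h2).1]
  -- the lists
  set A : List D := (List.range p).map (fun i => f (i + 1)) with hA
  have hlistA : d :: ((List.range p).map fun i => f (i + 2)) = A ++ [f (p + 1)] := by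
    have h1 : (List.range (p + 1)).map (fun i => f (i + 1)) = A ++ [f (p + 1)] := by
      rw [List.range_succ, List.map_append]; rfl
    rw [← h1, List.range_succ_eq_map, List.map_cons, zero_add, ← hd1, List.map_map]
    rfl
  set L : List D := ((List.range p).map fun i => f (i + 2)) ++ H with hL
  have hdL : d :: L = A ++ (f (p + 1) :: H) := by
    rw [hL, ← List.cons_append, hlistA, List.append_assoc]; rfl
  have hmemL : ∀ e, e ∈ d :: L ↔ (∃ i, 1 ≤ i ∧ i < p + 2 ∧ e = f i) ∨ e ∈ H := by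
    intro e
    rw [hdL, List.mem_append, hA, List.mem_map, List.mem_cons]
    constructor
    · rintro (⟨i, hi, rfl⟩ | rfl | h1)
      · rw [List.mem_range] at hi
        exact Or.inl ⟨i + 1, by omega, by omega, rfl⟩
      · exact Or.inl ⟨p + 1, by omega, by omega, rfl⟩
      · exact Or.inr h1
    · rintro (⟨i, h1, h2, rfl⟩ | h1)
      · rcases Nat.lt_or_ge i (p + 1) with h3 | h3
        · exact Or.inl ⟨i - 1, List.mem_range.2 (by omega), by rw [Nat.sub_add_cancel h1]⟩
        · have h4 : i = p + 1 := by omega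
          rw [h4]; exact Or.inr (Or.inl rfl)
      · exact Or.inr (Or.inr h1)
  have hb : T3.Bi σ3 d := h.memd.2.1.bi
  have key := T.list_class hP (σ := w) (d := d) (L := L) ?_ ?_ ?_ ?_ ?_ e
  · rw [key, hmemL]
    constructor
    · rintro (⟨i, h1, h2, rfl⟩ | h1)
      · exact Or.inl ⟨hmem i h2, hne i h1 h2⟩
      · exact Or.inr h1
    · rintro (⟨h1, h2⟩ | h1)
      · obtain ⟨i, hi, rfl⟩ := (hrel e).1 h1
        refine Or.inl ⟨i, ?_, hi, rfl⟩
        rcases Nat.eq_zero_or_pos i with h3 | h3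
        · exfalso; apply h2; rw [h3, hf0]
        · exact h3
      · exact Or.inr h1
  · -- chain
    rw [hdL, List.append_assoc, List.isChain_append]
    refine ⟨?_, ?_, ?_⟩
    · rw [List.isChain_iff_getElem]
      intro i hi
      have hi' : i + 1 < p := by simpa [hA] using hi
      simp only [hA, List.getElem_map, List.getElem_range]
      exact hTs (i + 1) (by omega) (by omega)
    · have := h.chain
      rw [hg1] at this
      simpa using this
    · intro x hx y hy
      simp only [List.cons_append, List.head?_cons, Option.mem_def, Option.some.injEq] at hy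
      rcases Nat.eq_zero_or_pos p with h0 | h0
      · rw [hA, h0] at hx; simp at hx
      · obtain ⟨q, rfl⟩ : ∃ q, p = q + 1 := ⟨p - 1, by omega⟩
        have h1 : A.getLast? = some (f (q + 1)) := by
          rw [hA, List.range_succ, List.map_append]
          simp
        rw [h1] at hx
        simp only [Option.mem_def, Option.some.injEq] at hx
        rw [← hx, ← hy]
        exact hTs (q + 1) (by omega) (by omega)
  · intro e he
    rcases (hmemL e).1 he with ⟨i, h1, h2, rfl⟩ | h1
    · exact hmi i h1 h2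
    · exact h.miH e h1
  · -- distinct sources
    have h1 : d :: L = (List.range (p + 1)).map (fun i => f (i + 1)) ++ H := by
      rw [List.range_succ, List.map_append, List.append_assoc, hdL]; rfl
    rw [h1, List.map_append, List.nodup_append]
    refine ⟨?_, h.nodup, ?_⟩
    · rw [List.map_map, List.nodup_map_iff_inj_on List.nodup_range]
      intro i hi k hk hik
      rw [List.mem_range] at hi hk
      simp only [comp_apply] at hik
      have := hinj (i + 1) (by omega) (k + 1) (by omega) (by rw [hC.src, hC.src, hik])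
      omega
    · intro a ha b hb' hab
      rw [List.map_map, List.mem_map] at ha
      obtain ⟨i, hi, rfl⟩ := ha
      rw [List.mem_range] at hi
      simp only [comp_apply] at hab
      rcases Nat.eq_zero_or_pos i with h0 | h0
      · rw [h0, zero_add, ← hd1] at hab
        exact h.notmem (by rw [hab]; exact hb')
      · rw [List.mem_map] at hb'
        obtain ⟨e', he', rfl⟩ := hb'
        obtain ⟨a1, a2, a3⟩ := hfree (i + 1) (by omega) (by omega)
        rw [hC.src, hab] at a1 a2 a3
        rcases h.frz e' he' with h2 | h2 | h2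
        · exact a1 h2
        · exact a2 h2
        · exact a3 h2
  · -- not degenerate
    intro hh
    have h1 := hC.apex d
    rw [hh, ← hC.src, hd1] at h1
    -- `apex d = src d` in `T3`
    have h2 := hs 1 (by omega)
    rw [h1] at h2
    rcases Nat.lt_or_ge 2 (p + 2) with h3 | h3
    · have := hinj 2 h3 1 (by omega) h2
      omega
    · have h4 : p = 0 := by omega
      subst h4
      rw [zero_add] at hfm
      rw [show (1 + 1 : ℕ) = 2 from rfl, hfm, hs1] at h2
      exact h.good h2.symm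
  · intro e he
    have hcd : w (T.tgt d) = σ3 (T3.tgt o) := by
      rw [hd1]; exact (hcol 1 le_rfl (by omega)).2
    rcases (hmemL e).1 he with ⟨i, h1, h2, rfl⟩ | h1
    · obtain ⟨n, hn, h3⟩ := h.span (f i) (hmem i h2) (hne i h1 h2)
      obtain ⟨-, -, l, hl, hl2⟩ := h.agree.joined hC hb hn
      rw [h3] at hl
      exact ⟨l, hl, fun e' he' => ⟨(hl2 e' he').1.1, (hl2 e' he').2.1⟩⟩
    · obtain ⟨-, -, l, hl, hl2⟩ := h.walk e h1
      exact ⟨l, hl, fun e' he' => ⟨(hl2 e' he').1.1, (hl2 e' he').2.1⟩⟩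

/-- Members of the closing chain are not in the class of `o`, except possibly `o` itself. -/
theorem Closed3.not_both [Finite D] (hP3 : T3.Planar) (hC : Contr T T3 π)
    (h : Closed3 T T3 π σ3 w o d g N H) {e : D} (h1 : T3.Rel σ3 o e) (h2 : e ≠ o) : e ∉ H := by
  intro he
  obtain ⟨m, f, hm, hf0, hfm, hs, hinj, hrel, -⟩ := T3.class_cycle hP3 h.mi h.good
  obtain ⟨i, hi, rfl⟩ := (hrel e).1 h1
  have hi1 : 1 ≤ i := by
    rcases Nat.eq_zero_or_pos i with h3 | h3
    · exfalso; apply h2; rw [h3, hf0]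
    · exact h3
  have hs1 : T3.src (f 1) = T3.apex o := by
    have := hs 0 (by omega); rwa [zero_add, hf0] at this
  have hm2 : 1 < m := by omega
  have hd1 : d = f 1 := by
    obtain ⟨k, hk, h3⟩ := (hrel d).1 h.memd
    rw [h3]
    have h4 := h.srcd
    rw [h3, ← hs1] at h4
    rw [hinj k hk 1 hm2 h4]
  rcases h.frz _ he with h3 | h3 | h3
  · rw [← hC.src, ← hf0] at h3
    have := hinj i hi 0 (by omega) h3
    omega
  · rw [← hC.src] at h3
    obtain ⟨-, -, n, -, h4, -⟩ := h1
    have h5 := T3.col_src_iter σ3 o n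
    rw [h4, h3] at h5
    exact h.mi.1 h5.symm
  · rw [← hC.src, ← hs1] at h3
    have h4 := hinj i hi 1 hm2 h3
    rw [h4, ← hd1] at he
    exact h.notmem (List.mem_map.2 ⟨d, he, rfl⟩)

/-- **Closing, values.** -/
theorem Closed3.cls_eq [Fintype D] (hP : T.Planar) (hP3 : T3.Planar) (hC : Contr T T3 π)
    (h : Closed3 T T3 π σ3 w o d g N H) {Θ : D → ℂ} (ho : Θ o = 0) :
    T.cls w d Θ = T3.cls σ3 o Θ + (H.map Θ).sum := by
  classical
  have hn : H.Nodup := List.Nodup.of_map _ h.nodup
  have h1 : (H.map Θ).sum = ∑ e, if e ∈ H then Θ e else 0 := by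
    rw [← Finset.sum_filter, ← List.sum_toFinset Θ hn]
    apply Finset.sum_congr _ fun _ _ => rfl
    ext e
    simp
  rw [h1]
  unfold Tri.cls
  rw [← Finset.sum_add_distrib]
  apply Finset.sum_congr rfl
  intro e _
  have h2 : T.Rel w e d ↔ (T3.Rel σ3 e o ∧ e ≠ o) ∨ e ∈ H := by
    constructor
    · intro h3
      rcases (h.rel_iff hP hP3 hC e).1 (T.rel_symm h3) with h4 | h4
      · exact Or.inl ⟨T3.rel_symm h4.1, h4.2⟩
      · exact Or.inr h4
    · rintro (h3 | h3)
      · exact T.rel_symm ((h.rel_iff hP hP3 hC e).2 (Or.inl ⟨T3.rel_symm h3.1, h3.2⟩))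
      · exact T.rel_symm ((h.rel_iff hP hP3 hC e).2 (Or.inr h3))
  by_cases h0 : e = o
  · subst h0
    rw [ho]
    simp
  · by_cases h3 : T3.Rel σ3 e o
    · have h4 := h.not_both hP3 hC (T3.rel_symm h3) h0
      rw [if_pos (h2.2 (Or.inl ⟨h3, h0⟩)), if_pos h3, if_neg h4, add_zero]
    · by_cases h4 : e ∈ H
      · rw [if_pos (h2.2 (Or.inr h4)), if_neg h3, if_pos h4, zero_add]
      · rw [if_neg (fun h5 => (h2.1 h5).elim (fun h6 => h3 h6.1) h4), if_neg h3, if_neg h4,
          zero_add]

end Vale.Agent.P148.R2.H897
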