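import Vale.Agent.P148.R2.H838.Law

/-!
# Row CAL: fairness of the world of the mark

The colours of the first composite `s` are flipped on the explored set `E s`, with two rules: the rule
`S1` on the hubs `P s` of the gates of the mark (explored completely), the rule `S2` elsewhere.  Then
the unexplored colours are resampled.  The result is exactly fair.

* `flip2` : the flip with two rules, a bijection (`flip2_equiv`)
* `ex_flip2_glue` : fairness for one fair colouring
* `cal`, `cal_fair`, `cal_le` : the composite of three colourings, fairness and density bound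
* `cal_same`, `cal_flip`, `cal_off` : values
-/

open Finset
open scoped Classical

namespace Vale.Agent.P148.R2.H897

open Vale.Agent.P148.R2.H953 Vale.Agent.P148.R2.H838

set_option linter.unusedSectionVars false

variable {V : Type*} [Fintype V]

/-- Flip `S1` on `P s` and `S2` off `P s`. -/
noncomputable def flip2 (P : (V → Bool) → Set V) (S1 S2 : V → Prop) (s : V → Bool) : V → Bool :=
  glue (P s) (H953.flip S1 s) (H953.flip S2 s)

/-- The inverse of `flip2`. -/
noncomputable def unflip2 (P : (V → Bool) → Set V) (S1 S2 : V → Prop) (u : V → Bool) : V → Bool :=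
  glue (P (H953.flip S1 u)) (H953.flip S1 u) (H953.flip S2 u)

variable {P E H : (V → Bool) → Set V} {S1 S2 : V → Prop}

theorem flip_flip (S : V → Prop) (s : V → Bool) (v : V) :
    H953.flip S (H953.flip S s) v = s v := congrFun (flip_invol S s) v

theorem flip_congr_at {S : V → Prop} {s t : V → Bool} {v : V} (h : s v = t v) :
    H953.flip S s v = H953.flip S t v := by
  unfold H953.flip
  rw [h]

theorem P_flip2 (hP : IsStop P) (s : V → Bool) : P (H953.flip S1 (flip2 P S1 S2 s)) = P s := by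
  refine hP _ _ fun v hv => ?_
  unfold flip2
  rw [← flip_flip S1 s v]
  exact flip_congr_at (glue_mem hv)

theorem P_unflip2 (hP : IsStop P) (u : V → Bool) :
    P (unflip2 P S1 S2 u) = P (H953.flip S1 u) := hP _ _ (agree_glue _ _ _)

theorem unflip2_flip2 (hP : IsStop P) (s : V → Bool) :
    unflip2 P S1 S2 (flip2 P S1 S2 s) = s := by
  unfold unflip2
  rw [P_flip2 hP]
  funext v
  by_cases hv : v ∈ P s
  · rw [glue_mem hv, ← flip_flip S1 s v]
    exact flip_congr_at (glue_mem hv)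
  · rw [glue_not_mem hv, ← flip_flip S2 s v]
    exact flip_congr_at (glue_not_mem hv)

theorem flip2_unflip2 (hP : IsStop P) (u : V → Bool) :
    flip2 P S1 S2 (unflip2 P S1 S2 u) = u := by
  unfold flip2
  rw [P_unflip2 hP]
  funext v
  by_cases hv : v ∈ P (H953.flip S1 u)
  · rw [glue_mem hv, ← flip_flip S1 u v]
    exact flip_congr_at (glue_mem hv)
  · rw [glue_not_mem hv, ← flip_flip S2 u v]
    exact flip_congr_at (glue_not_mem hv)

/-- The flip is a bijection. -/
noncomputable def flip2_equiv (hP : IsStop P) (S1 S2 : V → Prop) : (V → Bool) ≃ (V → Bool) where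
  toFun := flip2 P S1 S2
  invFun := unflip2 P S1 S2
  left_inv := unflip2_flip2 hP
  right_inv := flip2_unflip2 hP

theorem ex_flip2 (hP : IsStop P) (S1 S2 : V → Prop) (f : (V → Bool) → ℝ) :
    (ex fun s => f (flip2 P S1 S2 s)) = ex f := by
  unfold ex
  congr 1
  exact Equiv.sum_comp (flip2_equiv hP S1 S2) f

theorem isStop_unflip2 (hP : IsStop P) (hE : IsStop E) (hPE : ∀ s, P s ⊆ E s) (S1 S2 : V → Prop) :
    IsStop fun u => E (unflip2 P S1 S2 u) := by
  intro u u' h
  have h0 : P (H953.flip S1 u) ⊆ E (unflip2 P S1 S2 u) := by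
    rw [← P_unflip2 (S2 := S2) hP]
    exact hPE _
  have h1 : P (H953.flip S1 u') = P (H953.flip S1 u) := by
    refine hP _ _ fun v hv => ?_
    exact flip_congr_at (h v (h0 hv))
  refine hE _ _ fun v hv => ?_
  unfold unflip2
  rw [h1]
  by_cases hv1 : v ∈ P (H953.flip S1 u)
  · rw [glue_mem hv1, glue_mem hv1]
    exact flip_congr_at (h v hv)
  · rw [glue_not_mem hv1, glue_not_mem hv1]
    exact flip_congr_at (h v hv)

/-- **Fairness with two rules.** -/
theorem ex_flip2_glue (hP : IsStop P) (hE : IsStop E) (hPE : ∀ s, P s ⊆ E s) (S1 S2 : V → Prop)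
    (f : (V → Bool) → ℝ) :
    (ex fun s => ex fun t => f (glue (E s) (flip2 P S1 S2 s) t)) = ex f := by
  rw [← ex_resample (isStop_unflip2 hP hE hPE S1 S2) f]
  rw [← ex_flip2 hP S1 S2 fun u => ex fun t => f (glue (E (unflip2 P S1 S2 u)) u t)]
  refine ex_congr fun s => ex_congr fun t => ?_
  rw [unflip2_flip2 hP]

/-- The colouring of the world of the mark. -/
noncomputable def cal (H P E : (V → Bool) → Set V) (S1 S2 : V → Prop) (c₁ c₂ c₃ : V → Bool) :
    V → Bool := glue (E (s12 H c₁ c₂)) (flip2 P S1 S2 (s12 H c₁ c₂)) c₃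

/-- **The colouring of the world of the mark is fair.** -/
theorem cal_fair (hH : IsStop H) (hP : IsStop P) (hE : IsStop E) (hPE : ∀ s, P s ⊆ E s)
    (S1 S2 : V → Prop) (F : (V → Bool) → ℝ) :
    (ex fun c₁ => ex fun c₂ => ex fun c₃ => F (cal H P E S1 S2 c₁ c₂ c₃)) = ex F := by
  have h1 := s12_fair hH fun s => ex fun c₃ => F (glue (E s) (flip2 P S1 S2 s) c₃)
  rw [← ex_flip2_glue hP hE hPE S1 S2 F, ← h1]
  rfl

/-- **Density bound.** -/
theorem cal_le (hH : IsStop H) (hP : IsStop P) (hE : IsStop E) (hPE : ∀ s, P s ⊆ E s)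
    (S1 S2 : V → Prop) {D : (V → Bool) → (V → Bool) → ℝ} {C : ℝ} (hD : ∀ c₁ c₂, D c₁ c₂ ≤ C)
    {F : (V → Bool) → ℝ} (hF : ∀ s, 0 ≤ F s) :
    (ex fun c₁ => ex fun c₂ => ex fun c₃ => D c₁ c₂ * F (cal H P E S1 S2 c₁ c₂ c₃)) ≤
      C * ex F := by
  rw [← cal_fair hH hP hE hPE S1 S2 F, ← ex_smul]
  refine ex_mono fun c₁ => ?_
  rw [← ex_smul]
  refine ex_mono fun c₂ => ?_
  rw [← ex_smul]
  exact ex_mono fun c₃ => mul_le_mul_of_nonneg_right (hD _ _) (hF _)

section values

variable {c₁ c₂ : V → Bool} (c₃ : V → Bool) {v : V}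

theorem cal_off (hv : v ∉ E (s12 H c₁ c₂)) : cal H P E S1 S2 c₁ c₂ c₃ v = c₃ v := glue_not_mem hv

/-- Explored and not flipped. -/
theorem cal_same (hv : v ∈ E (s12 H c₁ c₂)) (h1 : v ∈ P (s12 H c₁ c₂) → ¬ S1 v)
    (h2 : v ∉ P (s12 H c₁ c₂) → ¬ S2 v) :
    cal H P E S1 S2 c₁ c₂ c₃ v = s12 H c₁ c₂ v := by
  unfold cal
  rw [glue_mem hv]
  unfold flip2
  by_cases h : v ∈ P (s12 H c₁ c₂)
  · rw [glue_mem h]
    exact if_neg (h1 h)
  · rw [glue_not_mem h]
    exact if_neg (h2 h)

/-- Explored and flipped. -/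
theorem cal_flip (hv : v ∈ E (s12 H c₁ c₂)) (h1 : v ∈ P (s12 H c₁ c₂) → S1 v)
    (h2 : v ∉ P (s12 H c₁ c₂) → S2 v) :
    cal H P E S1 S2 c₁ c₂ c₃ v = !s12 H c₁ c₂ v := by
  unfold cal
  rw [glue_mem hv]
  unfold flip2
  by_cases h : v ∈ P (s12 H c₁ c₂)
  · rw [glue_mem h]
    exact if_pos (h1 h)
  · rw [glue_not_mem h]
    exact if_pos (h2 h)

/-- Explored, in a hub of the mark: the hubs of the mark are hubs. -/
theorem P_s12 (hP : IsStop P) (hPH : ∀ s, P s ⊆ H s) : P (s12 H c₁ c₂) = P c₁ :=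
  hP _ _ ((agree_glue (H c₁) c₁ c₂).mono (hPH c₁))

/-- The form with two coins: `c₁` with the sign `S1`, `c₂` with the sign `S2`, when the two signs
agree on the hubs which are not those of the mark. -/
theorem cal_coin (hP : IsStop P) (hPH : ∀ s, P s ⊆ H s) (hv : v ∈ E (s12 H c₁ c₂))
    (hS : v ∈ H c₁ → v ∉ P c₁ → (S1 v ↔ S2 v)) :
    cal H P E S1 S2 c₁ c₂ c₃ v = glue (H c₁) (H953.flip S1 c₁) (H953.flip S2 c₂) v := by
  unfold cal
  rw [glue_mem hv]
  unfold flip2
  rw [P_s12 hP hPH]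
  unfold s12
  by_cases h : v ∈ P c₁
  · rw [glue_mem h, glue_mem (hPH _ h)]
    exact flip_congr_at (glue_mem (hPH _ h))
  · rw [glue_not_mem h]
    by_cases hh : v ∈ H c₁
    · rw [glue_mem hh]
      have e : glue (H c₁) c₁ c₂ v = c₁ v := glue_mem hh
      unfold H953.flip
      simp only [e, hS hh h]
    · rw [glue_not_mem hh]
      exact flip_congr_at (glue_not_mem hh)

end values

end Vale.Agent.P148.R2.H897
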