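import Vale.Agent.P148.R2.H897.CalDet
import Vale.Agent.P148.R2.H565.Mc
import Vale.Agent.P148.R2.H659.Close2

/-!
# Row CAL: the dichotomy on a closed strand cut into pieces

`LoopT` cuts the closed strand of `o` into pieces, `Loop` gives the times of the main cycle.  The
three arcs are the pieces `[0, A)`, `[A, B)`, `[B, K)`.  For the arc `γ` with the pieces `[a, b)`, the
colouring `τ` of the plane is described by `Mark`: the strand keeps its colours on the pieces
`[b + 1, a + K - 1)`, its left vertices are white on the pieces `[a + 3, b - 1)`, the two parts are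
linked by whites, and the other pieces are in the zone `Z`.  `cal_inst` : then the dichotomy holds.
-/

namespace Vale.Agent.P148.R2.H897

open Function Vale.Agent.P148.R2.H258 Vale.Agent.P148.R2.H258.Tri Vale.Agent.P148.R2.H659
  Vale.Agent.P148.R2.H871 Vale.Agent.P148.R2.H953 Vale.Agent.P148.R2.H838
  Vale.Agent.P148.R2.H251 Vale.Agent.P148.R2.H565

/-- The time of the index `k` of the periodic main cycle. -/
def Tm (tm : ℕ → ℕ) (n L k : ℕ) : ℕ := tm (k % n) + k / n * L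

section idx

variable {V V1 D : Type*} {T : Tri V D} {π : V → V1} {O : V1} {σ : V → Bool} {o : D} {n : ℕ}
  {c : ℕ → D} {tm : ℕ → ℕ}

theorem Tm_hit (h : H659.Loop T π O σ o n c tm) (k : ℕ) :
    (T.st σ)^[Tm tm n (H871.per T σ o) k] o = cy c n k := by
  have hn := h.ring.pos
  unfold Tm cy
  rw [← h.hit _ (Nat.mod_lt k hn)]
  have h1 : (T.st σ)^[(tm (k % n) + k / n * H871.per T σ o) % H871.per T σ o] o =
      (T.st σ)^[tm (k % n) + k / n * H871.per T σ o] o := iterate_mod_minimalPeriod_eq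
  rw [← h1, Nat.add_mul_mod_self_right, Nat.mod_eq_of_lt (h.lt _ (Nat.mod_lt k hn))]

theorem Tm_of_lt {i L : ℕ} (hi : i < n) : Tm tm n L i = tm i := by
  unfold Tm
  rw [Nat.mod_eq_of_lt hi, Nat.div_eq_of_lt hi, Nat.zero_mul, Nat.add_zero]

theorem Tm_add {i L : ℕ} (hi : i < n) : Tm tm n L (i + n) = tm i + L := by
  unfold Tm
  rw [Nat.add_mod_right, Nat.mod_eq_of_lt hi, Nat.add_div_right _ (by omega),
    Nat.div_eq_of_lt hi, Nat.zero_add, Nat.one_mul]

theorem Tm_lt (h : H659.Loop T π O σ o n c tm) {i j : ℕ} (hij : i < j) :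
    Tm tm n (H871.per T σ o) i < Tm tm n (H871.per T σ o) j := by
  have hn := h.ring.pos
  have h1 := Nat.div_add_mod i n
  have h2 := Nat.div_add_mod j n
  have h3 : i / n ≤ j / n := Nat.div_le_div_right hij.le
  have h4 := h.lt _ (Nat.mod_lt i hn)
  unfold Tm
  rcases Nat.eq_or_lt_of_le h3 with h5 | h5
  · rw [← h5] at h2 ⊢
    have h6 : i % n < j % n := by omega
    have h7 := h.mono _ _ h6 (Nat.mod_lt j hn)
    omega
  · have h6 : (i / n + 1) * H871.per T σ o ≤ j / n * H871.per T σ o :=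
      Nat.mul_le_mul_right _ h5
    rw [Nat.add_mul, Nat.one_mul] at h6
    omega

theorem Tm_le (h : H659.Loop T π O σ o n c tm) {i j : ℕ} (hij : i ≤ j) :
    Tm tm n (H871.per T σ o) i ≤ Tm tm n (H871.per T σ o) j := by
  rcases Nat.eq_or_lt_of_le hij with h1 | h1
  · rw [h1]
  · exact (Tm_lt h h1).le

theorem gapL_eq {j l j' l' : ℕ} (hj : j' % n = j) (hl : l' % n = l) (h1 : j' < l')
    (h2 : l' < j' + n) : gapL n j l = l' - j' := by
  have hn : 0 < n := by omega
  have hjn : j < n := by rw [← hj]; exact Nat.mod_lt _ hn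
  have hln : l < n := by rw [← hl]; exact Nat.mod_lt _ hn
  have h3 := gapL_end hln hjn
  have h4 : j + gapL n j l ≡ l' [MOD n] := by
    show (j + gapL n j l) % n = l' % n
    rw [h3, hl]
  have h5 : j' + gapL n j l ≡ l' [MOD n] := by
    refine Nat.ModEq.trans ?_ h4
    refine Nat.ModEq.add_right _ ?_
    show j' % n = j % n
    rw [hj, Nat.mod_eq_of_lt hjn]
  have h6 : j' + gapL n j l ≡ j' + (l' - j') [MOD n] := by
    rw [Nat.add_sub_cancel' h1.le]; exact h5
  exact Nat.ModEq.eq_of_lt_of_lt (Nat.ModEq.add_left_cancel' j' h6) (gapL_lt hn) (by omega)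

theorem cy_shift {j j' : ℕ} (hj : j' % n = j) (hjn : j < n) (k : ℕ) :
    cy c n (j + k) = cy c n (j' + k) := by
  unfold cy
  congr 1
  conv_rhs => rw [Nat.add_mod, hj]
  conv_lhs => rw [Nat.add_mod, Nat.mod_eq_of_lt hjn]

end idx

/-! ### walks along a strand for another colouring -/

section walk

variable {V D : Type*} {T : Tri V D} {σ : V → Bool} {o : D}

theorem contr_id (T : Tri V D) : Contr T T (id : V → V) :=
  ⟨fun _ => rfl, fun _ => rfl, fun _ => rfl⟩

/-- A monochromatic walk whose vertices have the colour `c'` in `τ`. -/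
theorem joined_recolor {c c' : Bool} {F : Set V} {x y : V} {τ : V → Bool}
    (h : Joined T σ c F x y) (hF : ∀ v ∈ F, τ v = c') : Joined T τ c' Set.univ x y := by
  obtain ⟨h1, -, l, h3, h4⟩ := h
  exact ⟨Set.mem_univ _, hF _ h1, l, h3, fun g hg =>
    ⟨⟨hF _ (h4 g hg).1.2, Set.mem_univ _⟩, ⟨hF _ (h4 g hg).2.2, Set.mem_univ _⟩⟩⟩

theorem right_joined (hb : T.Bi σ o) {τ : V → Bool} {c' : Bool} {u v : ℕ} (huv : u ≤ v)
    (h : ∀ m, u ≤ m → m ≤ v → τ (T.tgt ((T.st σ)^[m] o)) = c') :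
    Joined T τ c' Set.univ (T.tgt ((T.st σ)^[u] o)) (T.tgt ((T.st σ)^[v] o)) := by
  have h1 := white_walk (T := T) (T3 := T) (π := id) (contr_id T) hb (F := {x | τ x = c'}) huv h
  exact joined_recolor h1 fun v hv => hv

theorem left_joined' (hb : T.Bi σ o) {τ : V → Bool} {c' : Bool} {u v : ℕ} (huv : u ≤ v)
    (h : ∀ m, u ≤ m → m ≤ v → τ (T.src ((T.st σ)^[m] o)) = c') :
    Joined T τ c' Set.univ (T.src ((T.st σ)^[u] o)) (T.src ((T.st σ)^[v] o)) := by
  have h1 := black_walk (T := T) (T3 := T) (π := id) (contr_id T) hb (F := {x | τ x = c'}) huv h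
  exact joined_recolor h1 fun v hv => hv

end walk

/-! ### the colouring of a mark -/

/-- The colouring `τ` along the closed strand of `o`, for the arc of the pieces `[a, b)`. -/
structure Mark {V D : Type*} (T : Tri V D) (σ : V → Bool) (o : D) (K : ℕ) (t : ℕ → ℕ) (a b : ℕ)
    (τ : V → Bool) (Z : Set V) : Prop where
  lo : a + 5 ≤ b
  hi : b + 4 ≤ a + K
  far : ∀ m, t (b + 1) ≤ m → m ≤ t (a + K - 1) →
    τ (T.src ((T.st σ)^[m] o)) = true ∧ τ (T.tgt ((T.st σ)^[m] o)) = false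
  near : ∀ m, t (a + 3) ≤ m → m < t (b - 1) → τ (T.src ((T.st σ)^[m] o)) = false
  link : Joined T τ false Set.univ (T.tgt ((T.st σ)^[t (a + K - 1)] o))
    (T.src ((T.st σ)^[t (a + 3)] o))
  zs : ∀ m, t a ≤ m → m < t (a + 3) → T.src ((T.st σ)^[m] o) ∈ Z
  ze : ∀ m, t (b - 1) ≤ m → m < t (b + 1) → T.src ((T.st σ)^[m] o) ∈ Z
  zp : ∀ m, t (a + K - 2) ≤ m → m < t (a + K) → T.src ((T.st σ)^[m] o) ∈ Z

/-- The pieces of the arcs. -/
def win (A B K : ℕ) : Fin 3 → ℕ × ℕ
  | 0 => (B, K)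
  | 1 => (0, A)
  | 2 => (A, B)

/-- The cuts of the main cycle. -/
structure Cut (n s₁ s₂ : ℕ) (tm t : ℕ → ℕ) (A B K : ℕ) : Prop where
  lt1 : ∀ i < n, i < s₁ ↔ tm i < t A
  lt2 : ∀ i < n, i < s₂ ↔ tm i < t B
  le1 : A ≤ B
  le2 : B ≤ K

/-- The output of the dichotomy. -/
def Dich {V V1 V3 D : Type*} [Fintype D] (T : Tri V D) (T3 : Tri V3 D) (π : V → V1) (O : V1)
    (c : ℕ → D) (n s₁ s₂ : ℕ) (π3 : V → V3) (lab : Fin 3 → V3) (σ : V3 → Bool) (q : D)
    (α β γ : Fin 3) (Z Z' : Set V) (τ : V → Bool) : Prop :=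
    ∃ m f j₁ i₁ N, Path3 T T3 π O c n s₁ s₂ σ q α β m f j₁ i₁ ∧
      (T3.st σ)^[N] (f 1) = f (m - 1) ∧
      (∀ i, 1 ≤ i → i < m → ∃ k ≤ N, (T3.st σ)^[k] (f 1) = f i) ∧
      (∃ i < n, InArc s₁ s₂ n γ i ∧ (T.tgt (f 1) = T.src (c i) ∨
        ∃ u, (∃ e, T.src e = T.src (c i) ∧ T.tgt e = u) ∧
          Joined T (fun v => σ (π3 v)) (σ (lab γ)) {v | π v ≠ O} u (T.tgt (f 1)))) ∧
      ((∃ z ∈ Z', z ∈ Sn T T3 σ (f 1) N ∧
          BArm T {v | π v ≠ O} (fun v => σ (π3 v)) (σ (T3.src q)) z (f 1) (f (m - 1))) ∨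
        ((∀ z ∈ Sn T T3 σ (f 1) N, z ∉ Z') ∧
          ((∃ z ∈ Z, ∃ u, Nb T u z ∧
            Joined T (fun v => σ (π3 v)) (σ (lab γ)) {v | π v ≠ O} u (T.tgt (f 1))) ∨
          (T.Mi τ (f 1) ∧ (∀ g, T.Rel τ (f 1) g ↔ (∃ i, 1 ≤ i ∧ i < m ∧ g = f i) ∨
              ∃ k < gapL n j₁ i₁, g = cy c n (j₁ + k)) ∧
            (∀ Θ : D → ℂ, T.cls τ (f 1) Θ = ∑ i ∈ Finset.Ico 1 m, Θ (f i) +
              ∑ k ∈ Finset.range (gapL n j₁ i₁), Θ (cy c n (j₁ + k))) ∧
            ∃ i < n, InArc s₁ s₂ n γ i ∧ T.src (c i) ∉ Z ∧ (T.tgt (f 1) = T.src (c i) ∨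
              ∃ u, (∃ e, T.src e = T.src (c i) ∧ T.tgt e = u) ∧
                Joined T (fun v => σ (π3 v)) (σ (lab γ)) {v | π v ≠ O ∧ v ∉ Z} u
                  (T.tgt (f 1)))))))

section inst

variable {V V1 V3 D : Type*} {T : Tri V D} {T3 : Tri V3 D} {π : V → V1} {O : V1}
  {w : V → Bool} {c : ℕ → D} {n s₁ s₂ : ℕ} {S : Fin 3 → Set V} {π3 : V → V3} {lab : Fin 3 → V3}
  {K : ℕ} {o : D} {t tm : ℕ → ℕ} {A B : ℕ}

theorem inArc_lt {j : Fin 3} {i : ℕ} (h12 : s₁ < s₂) (h2 : s₂ < n) (h : InArc s₁ s₂ n j i) :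
    i < n := by
  rcases h with ⟨-, h⟩ | ⟨-, -, h⟩ | ⟨-, -, h⟩ <;> omega

/-- The arcs in time. -/
theorem inArc_iff (hL : LoopT T w K o t) (hl : H659.Loop T π O w o n c tm)
    (hc : Cut n s₁ s₂ tm t A B K) (h12 : s₁ < s₂) (h2 : s₂ < n) {j : Fin 3} {i : ℕ} :
    InArc s₁ s₂ n j i ↔ i < n ∧ t (win A B K j).1 ≤ tm i ∧ tm i < t (win A B K j).2 := by
  have hK : t K = H871.per T w o := by
    have := hL.per 0
    rwa [Nat.zero_add, hL.zero, Nat.zero_add] at this
  constructor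
  · intro h
    have hi := inArc_lt h12 h2 h
    refine ⟨hi, ?_⟩
    have h3 := hl.lt i hi
    rcases h with ⟨rfl, h4⟩ | ⟨rfl, h4, h5⟩ | ⟨rfl, h4, h5⟩
    · simp only [win, hL.zero]
      exact ⟨Nat.zero_le _, (hc.lt1 i hi).1 h4⟩
    · simp only [win]
      refine ⟨?_, (hc.lt2 i hi).1 h5⟩
      by_contra h6
      have := (hc.lt1 i hi).2 (by omega)
      omega
    · simp only [win, hK]
      refine ⟨?_, h3⟩
      by_contra h6
      have := (hc.lt2 i hi).2 (by omega)
      omega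
  · rintro ⟨hi, h3, h4⟩
    have hj : j = 0 ∨ j = 1 ∨ j = 2 := (by decide : ∀ j : Fin 3, j = 0 ∨ j = 1 ∨ j = 2) j
    rcases hj with rfl | rfl | rfl
    · simp only [win] at h3 h4
      refine Or.inr (Or.inr ⟨rfl, ?_, hi⟩)
      by_contra h6
      have := (hc.lt2 i hi).1 (by omega)
      omega
    · simp only [win] at h3 h4
      exact Or.inl ⟨rfl, (hc.lt1 i hi).2 h4⟩
    · simp only [win] at h3 h4
      refine Or.inr (Or.inl ⟨rfl, ?_, (hc.lt2 i hi).2 h4⟩)
      by_contra h6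
      have := (hc.lt1 i hi).1 (by omega)
      omega

/-- The lift of an index which is not in the arc of the pieces `[a, b)`. -/
def lift (n : ℕ) (tm t : ℕ → ℕ) (a i : ℕ) : ℕ := if tm i < t a then i + n else i

theorem lift_mod {a i : ℕ} (hi : i < n) : lift n tm t a i % n = i := by
  unfold lift
  split_ifs
  · rw [Nat.add_mod_right, Nat.mod_eq_of_lt hi]
  · exact Nat.mod_eq_of_lt hi

theorem lift_time (hL : LoopT T w K o t) (hl : H659.Loop T π O w o n c tm) {a b i : ℕ}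
    (hb : b ≤ K) (hi : i < n) (h : ¬ (t a ≤ tm i ∧ tm i < t b)) :
    t b ≤ Tm tm n (H871.per T w o) (lift n tm t a i) ∧
      Tm tm n (H871.per T w o) (lift n tm t a i) < t (a + K) := by
  have hK : t K = H871.per T w o := by
    have := hL.per 0
    rwa [Nat.zero_add, hL.zero, Nat.zero_add] at this
  have h1 : t b ≤ t K := hL.mono hb
  have h2 := hL.per a
  have h3 := hl.lt i hi
  unfold lift
  split_ifs with h4
  · rw [Tm_add hi]
    omega
  · rw [Tm_of_lt hi]
    have : t K ≤ t (a + K) := hL.mono (by omega)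
    omega

/-- **The dichotomy for a mark.** -/
theorem cal_inst [Fintype D] (hW : W3 T T3 π O w c n s₁ s₂ S π3 lab) (hL : LoopT T w K o t)
    (hl : H659.Loop T π O w o n c tm) (hc : Cut n s₁ s₂ tm t A B K) {σ : V3 → Bool} {q : D}
    (hq : T3.InFace (c (s₁ - 1)) q) (hm : T3.Mi σ q) {α β γ : Fin 3} (ha : T.src q ∈ S α)
    (hb : T.apex q ∈ S β) (hg : T.tgt q ∈ S γ) {Z Z' : Set V} (hZ : Z ⊆ Z') {τ : V → Bool}
    (hmk : Mark T w o K t (win A B K γ).1 (win A B K γ).2 τ Z)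
    (hσ : σ (lab γ) = false) (hσ' : ∀ j, j ≠ γ → σ (lab j) = true)
    (hfr : ∀ v, v ∉ Z → π v ≠ O → τ v = σ (π3 v)) :
    Dich T T3 π O c n s₁ s₂ π3 lab σ q α β γ Z Z' τ := by
  have h12 := hW.lt12
  have h2n := hW.lt2
  have hpos := hW.pos1
  have hwK : (win A B K γ).2 ≤ K := by
    have h1 := hc.le1
    have h2 := hc.le2
    have hj : γ = 0 ∨ γ = 1 ∨ γ = 2 := (by decide : ∀ j : Fin 3, j = 0 ∨ j = 1 ∨ j = 2) γ
    rcases hj with rfl | rfl | rfl <;> simp only [win] <;> omega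
  set a := (win A B K γ).1 with hadef
  set b := (win A B K γ).2 with hbdef
  have hlo := hmk.lo
  have hhi := hmk.hi
  have hinγ : ∀ i, i < n → (InArc s₁ s₂ n γ i ↔ t a ≤ tm i ∧ tm i < t b) := by
    intro i hi
    rw [inArc_iff hL hl hc h12 h2n]
    exact ⟨fun h => h.2, fun h => ⟨hi, h⟩⟩
  have hnotγ : ∀ {j : Fin 3} {i : ℕ}, j ≠ γ → InArc s₁ s₂ n j i →
      ¬ (t a ≤ tm i ∧ tm i < t b) := by
    intro j i hj hi h3
    have hin := inArc_lt h12 h2n hi
    exact hj (hW.cls_unique (hW.arc _ _ hi) (hW.arc _ _ ((hinγ i hin).2 h3)))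
  -- a far index off the zone
  have hfarT : ∀ {j : Fin 3} {i : ℕ}, j ≠ γ → InArc s₁ s₂ n j i → T.src (c i) ∉ Z →
      t (b + 1) ≤ Tm tm n (H871.per T w o) (lift n tm t a i) ∧
        Tm tm n (H871.per T w o) (lift n tm t a i) < t (a + K - 2) := by
    intro j i hj hi hz
    have hin := inArc_lt h12 h2n hi
    obtain ⟨h3, h4⟩ := lift_time hL hl hwK hin (hnotγ hj hi)
    have h5 : T.src ((T.st w)^[Tm tm n (H871.per T w o) (lift n tm t a i)] o) = T.src (c i) := by
      rw [Tm_hit hl]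
      unfold cy
      rw [lift_mod hin]
    constructor
    · by_contra h6
      push Not at h6
      apply hz
      rw [← h5]
      exact hmk.ze _ ((hL.mono (by omega)).trans h3) h6
    · by_contra h6
      push Not at h6
      apply hz
      rw [← h5]
      exact hmk.zp _ h6 h4
  have hnearT : ∀ {i : ℕ}, InArc s₁ s₂ n γ i → T.src (c i) ∉ Z →
      t (a + 3) ≤ tm i ∧ tm i < t (b - 1) := by
    intro i hi hz
    have hin := inArc_lt h12 h2n hi
    obtain ⟨h3, h4⟩ := (hinγ i hin).1 hi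
    have h5 := hl.hit i hin
    constructor
    · by_contra h6
      push Not at h6
      apply hz
      rw [← h5]
      exact hmk.zs _ h3 h6
    · by_contra h6
      push Not at h6
      apply hz
      rw [← h5]
      exact hmk.ze _ h6 (h4.trans_le (hL.mono (by omega)))
  have harc : ∀ j i, InArc s₁ s₂ n j i → T.src (c i) ∉ Z → τ (T.src (c i)) = σ (lab j) := by
    intro j i hi hz
    have hin := inArc_lt h12 h2n hi
    by_cases hj : j = γ
    · subst hj
      obtain ⟨h3, h4⟩ := hnearT hi hz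
      have := hmk.near _ h3 h4
      rw [hl.hit i hin] at this
      rw [this, hσ]
    · obtain ⟨h3, h4⟩ := hfarT hj hi hz
      have := (hmk.far _ h3 (h4.le.trans (hL.mono (by omega)))).1
      rw [Tm_hit hl] at this
      unfold cy at this
      rw [lift_mod hin] at this
      rw [this, hσ' j hj]
  -- the cyclic order of the classes
  have hord : α ≠ γ ∧ β ≠ γ ∧ ∀ j l, InArc s₁ s₂ n α j → InArc s₁ s₂ n β l →
      lift n tm t a j < lift n tm t a l ∧ lift n tm t a l < lift n tm t a j + n := by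
    obtain ⟨a1, a2, a3⟩ := hW.o_corners
    have h1 := hc.le1
    have h2 := hc.le2
    have tAB : t A ≤ t B := hL.mono h1
    rcases hq with rfl | rfl | rfl
    · obtain rfl := hW.cls_unique ha a1
      obtain rfl := hW.cls_unique hg a2
      obtain rfl := hW.cls_unique hb a3
      refine ⟨by decide, by decide, fun j l hj hl' => ?_⟩
      obtain ⟨j1, j2, j3⟩ := (inArc_iff hL hl hc h12 h2n).1 hj
      obtain ⟨l1, l2, l3⟩ := (inArc_iff hL hl hc h12 h2n).1 hl'
      simp only [win] at j2 j3 l2 l3 hadef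
      have hjl : j < l := by
        rcases hj with ⟨-, h5⟩ | ⟨h5, -⟩ | ⟨h5, -⟩
        · rcases hl' with ⟨h6, -⟩ | ⟨-, h6, -⟩ | ⟨h6, -⟩
          · exact absurd h6 (by decide)
          · omega
          · exact absurd h6 (by decide)
        · exact absurd h5 (by decide)
        · exact absurd h5 (by decide)
      unfold lift
      rw [hadef, if_pos (by omega), if_pos (by omega)]
      omega
    · rw [hW.contr.nxt, T.src_nxt'] at ha
      rw [hW.contr.nxt, T.tgt_nxt] at hg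
      rw [hW.contr.nxt, T.apex_nxt] at hb
      obtain rfl := hW.cls_unique ha a2
      obtain rfl := hW.cls_unique hg a3
      obtain rfl := hW.cls_unique hb a1
      refine ⟨by decide, by decide, fun j l hj hl' => ?_⟩
      obtain ⟨j1, j2, j3⟩ := (inArc_iff hL hl hc h12 h2n).1 hj
      obtain ⟨l1, l2, l3⟩ := (inArc_iff hL hl hc h12 h2n).1 hl'
      simp only [win] at j2 j3 l2 l3 hadef
      have hjl : l < j := by
        rcases hj with ⟨h5, -⟩ | ⟨h5, -⟩ | ⟨-, h5, -⟩
        · exact absurd h5 (by decide)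
        · exact absurd h5 (by decide)
        · rcases hl' with ⟨-, h6⟩ | ⟨h6, -⟩ | ⟨h6, -⟩
          · omega
          · exact absurd h6 (by decide)
          · exact absurd h6 (by decide)
      unfold lift
      rw [hadef, if_neg (by omega), if_pos (by omega)]
      omega
    · rw [hW.contr.nxt, hW.contr.nxt, T.src_nxt2] at ha
      rw [hW.contr.nxt, hW.contr.nxt, T.tgt_nxt2] at hg
      rw [hW.contr.nxt, hW.contr.nxt, T.apex_nxt2] at hb
      obtain rfl := hW.cls_unique ha a3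
      obtain rfl := hW.cls_unique hg a1
      obtain rfl := hW.cls_unique hb a2
      refine ⟨by decide, by decide, fun j l hj hl' => ?_⟩
      obtain ⟨j1, j2, j3⟩ := (inArc_iff hL hl hc h12 h2n).1 hj
      obtain ⟨l1, l2, l3⟩ := (inArc_iff hL hl hc h12 h2n).1 hl'
      simp only [win] at j2 j3 l2 l3 hadef
      have hjl : j < l := by
        rcases hj with ⟨h5, -⟩ | ⟨-, h4, h5⟩ | ⟨h5, -⟩
        · exact absurd h5 (by decide)
        · rcases hl' with ⟨h6, -⟩ | ⟨h6, -⟩ | ⟨-, h6, -⟩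
          · exact absurd h6 (by decide)
          · exact absurd h6 (by decide)
          · omega
        · exact absurd h5 (by decide)
      have h0 := hL.zero
      unfold lift
      rw [hadef, if_neg (by omega), if_neg (by omega)]
      omega
  obtain ⟨hαγ, hβγ, hlift⟩ := hord
  -- the chain
  have hch : ∀ i, InArc s₁ s₂ n γ i → T.src (c i) ∉ Z → ∀ j, InArc s₁ s₂ n α j →
      T.src (c j) ∉ Z' → ∀ l, InArc s₁ s₂ n β l → T.src (c l) ∉ Z' → ∀ k < gapL n j l,
      T.Mi τ (cy c n (j + k)) ∧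
        Joined T τ (σ (lab γ)) Set.univ (T.src (c i)) (T.tgt (cy c n (j + k))) := by
    intro i hi hiZ j hj hjZ l hl' hlZ k hk
    have hjn := inArc_lt h12 h2n hj
    have hln := inArc_lt h12 h2n hl'
    have hin := inArc_lt h12 h2n hi
    obtain ⟨h3, h4⟩ := hfarT hαγ hj (fun h => hjZ (hZ h))
    obtain ⟨h5, h6⟩ := hfarT hβγ hl' (fun h => hlZ (hZ h))
    obtain ⟨h7, h8⟩ := hlift j l hj hl'
    rw [gapL_eq (lift_mod (tm := tm) (t := t) (a := a) hjn)
      (lift_mod (tm := tm) (t := t) (a := a) hln) h7 h8] at hk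
    set j' := lift n tm t a j with hj'
    set l' := lift n tm t a l with hl''
    rw [cy_shift (c := c) (lift_mod (tm := tm) (t := t) (a := a) hjn) hjn k, ← hj']
    set m := Tm tm n (H871.per T w o) (j' + k) with hmdef
    have h9 : Tm tm n (H871.per T w o) j' ≤ m := Tm_le hl (by omega)
    have h10 : m < Tm tm n (H871.per T w o) l' := Tm_lt hl (by omega)
    have h11 : t (a + K - 2) ≤ t (a + K - 1) := hL.mono (by omega)
    have hhit : (T.st w)^[m] o = cy c n (j' + k) := Tm_hit hl _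
    have hmi0 : T.Mi w (cy c n (j' + k)) := by
      unfold cy
      exact hl.ring.mi _ (Nat.mod_lt _ hl.ring.pos)
    obtain ⟨b1, b2⟩ := hmk.far m (by omega) (by omega)
    have b3 := (hmk.far (m + 1) (by omega) (by omega)).1
    rw [succ_st, hhit, T.src_st_mi hmi0] at b3
    rw [hhit] at b1 b2
    refine ⟨⟨by rw [b1, b2]; decide, by rw [b3, b1]⟩, ?_⟩
    rw [hσ]
    obtain ⟨c1, c2⟩ := hnearT hi hiZ
    have d1 := left_joined' (T := T) (σ := w) hL.bi (τ := τ) (c' := false) c1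
      (fun m' e1 e2 => hmk.near m' e1 (by omega))
    rw [hl.hit i hin] at d1
    have d2 := right_joined (T := T) (σ := w) hL.bi (τ := τ) (c' := false)
      (show m ≤ t (a + K - 1) by omega)
      (fun m' e1 e2 => (hmk.far m' (by omega) e2).2)
    rw [hhit] at d2
    exact d1.symm.trans (hmk.link.symm.trans d2.symm)
  exact cal_dich' hW hq hm ha hb hg hZ hfr harc hch

end inst

end Vale.Agent.P148.R2.H897
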