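import Vale.Agent.P148.R2.H897.CalInst3
import Vale.Agent.P148.R2.H959.CalPos2
import Vale.Agent.P148.R2.H251.CalE0
import Vale.Agent.P148.R2.H530.ArmSc

/-!
# Row CAL: the inequality of one world of the scene

`scene_dich` : the dichotomy in the worlds of positive weight of the scene of the comb.
`hone_cal` : the inequality `r / 8 * ‖z‖ ≤ 12 * e + ε * (1 + ‖z‖)` in a world of positive weight, from
the three inputs `hA` (arms), `hU` (plane classes), `hV` (chain of the main cycle).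
-/

set_option linter.unusedSectionVars false

open Set Function Relation Metric
open scoped Classical
open Vale.Agent.P148.R2.H258 Vale.Agent.P148.R2.H258.Tri Vale.Agent.P148.R2.H659
  Vale.Agent.P148.R2.H871 Vale.Agent.P148.R2.H592
  Vale.Agent.P148.R2.H184 Vale.Agent.P148.R2.H203 Vale.Agent.P148.R2.H910
  Vale.Agent.P148.R2.H251 Vale.Agent.P148.R2.H838 Vale.Agent.P148.R2.H953
open _root_.P148 _root_.P148.H729

namespace Vale.Agent.P148.R2.H897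

open Vale.Agent.P148.R2.N (ms nc ms_pos)
open Vale.Agent.P148.R2.H566 (W0)
open Vale.Agent.P148.R2.H609 (TP piX)
open Vale.Agent.P148.R2.H172 (Frame GoodT fscOf mc)
open Vale.Agent.P148.R2.H959 (Mrk ag bg mk0 mk1 mk2 CalB)
open Vale.Agent.P148.R2.H678 (cw wd)
open Vale.Agent.P148.R2.H995 (nsup Zn calT)
open Vale.Agent.P148.R2.H291 (site bR SiteOK GEnv CT InEnv)
open Vale.Agent.P148.R2.H530 (ArmLe hbad_sc)

/-- The first gate of the arc `γ` of the calibration. -/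
abbrev agc (M : ℕ) (γ : Fin 3) : ℕ := ag (mk0 M 5) (mk1 M 5) (mk2 M 5) γ

/-- The last gate of the arc `γ` of the calibration. -/
abbrev bgc (M : ℕ) (γ : Fin 3) : ℕ := bg M (mk0 M 5) (mk1 M 5) (mk2 M 5) γ

section scene

variable {c : ℝ} {M : ℕ} {T : Set Pt} (h : GoodT c M T) (hM : 0 < M)
  {i : (site T 9 → Bool) × (site T 9 → Bool)} (hi : (fscOf hM h.site.hull).p i ≠ 0)
include hi

/-- **The dichotomy in the worlds of the scene.** -/
theorem scene_dich [Fintype (site T 9)]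
    {F : Frame M ((fscOf hM h.site.hull).w i) ((fscOf hM h.site.hull).x₀ i)
      ((fscOf hM h.site.hull).col i)} {s₁ s₂ : ℕ} {O3 : Fin 3 → Set ℂ}
    {h3 : Three3 ((fscOf hM h.site.hull).w i).X ((fscOf hM h.site.hull).w i).B O3}
    (hB : CalB F 5 s₁ s₂ O3 h3) (h4 : 4 ≤ M) {r : ℝ} (hr : 7 * ms M ≤ r) (γ : Fin 3)
    {Z' : Set (site T 9)} (hZ : Zn M (site T 9) (agc M γ) (bgc M γ) r ⊆ Z')
    (c₃ : site T 9 → Bool) :
    Dich (TP ((fscOf hM h.site.hull).w i) ((fscOf hM h.site.hull).x₀ i))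
      (TC ((fscOf hM h.site.hull).w i).hull h3) (piX ((fscOf hM h.site.hull).w i))
      ((fscOf hM h.site.hull).w i).O (F.bc (mk0 M 5)) (F.bn (mk0 M 5)) s₁ s₂
      (pi3 (site T 9) O3) Sum.inl (patt (site T 9) O3 γ c₃)
      (qd (TC ((fscOf hM h.site.hull).w i).hull h3) (F.bc (mk0 M 5) (s₁ - 1)) γ) (γ + 1)
      (γ + 2) γ (Zn M (site T 9) (agc M γ) (bgc M γ) r) Z'
      (calT M (site T 9) (agc M γ) (bgc M γ) i.1 i.2 c₃) := by
  have hA : (H172.combLaw hM (site T 9) (Subtype.val : site T 9 → ℂ)).A0 i.1 i.2 := h.A0 hM hi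
  exact dich_scene (X := site T 9) (b := bR 9) (c₁ := i.1) (c₂ := i.2) hM h.site.hull
    (H678.far_site h.site (by norm_num)) hA (H678.center_site h.site) (F := F) hB.mrk hB.w3
    (by unfold mk0 mk1; omega) (by unfold mk1 mk2; omega) (by unfold mk0 mk2 nc; omega) hr γ
    hZ c₃

end scene

theorem Zn_mono {M : ℕ} {X : Set ℂ} {p q : ℕ} {r r' : ℝ} (hr : r ≤ r') :
    Zn M X p q r ⊆ Zn M X p q r' :=
  fun _ hv => hv.imp (fun h => ball_subset_ball hr h) (fun h => ball_subset_ball hr h)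

/-- **The inequality of one world.** -/
theorem hone_core {M : ℕ} {T : Set Pt} {w : W0} [Fintype w.X] {x₀ : w.X} {col : w.X → Bool}
    (hS : SiteOK T 9 (ms M / 1000)) (hX : w.X = site T 9) (hM : 120 ≤ M)
    (hin : InEnv w (pts T) 3 (ms M / 1000))
    {F : Frame M w x₀ col} {s₁ s₂ : ℕ} {O3 : Fin 3 → Set ℂ} {h3 : Three3 w.X w.B O3}
    (hB : CalB F 5 s₁ s₂ O3 h3)
    {κt : ℂ} {κ : ℝ} {Θ : Dt → ℂ} (hΘ : Wt κt κ Θ) (him : 0 < κt.im) {I : Finset (ℂ × ℝ)}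
    (hG : GEnv κ Θ 3 (ms M / 1000) I T) {r : ℝ} (hr1 : r ≤ 1) (hr : 480 * ms M ≤ r)
    (harm : ArmLe T (2 * r) (1 / 2) (1 / 2)) {z : ℂ}
    {e c' t'' ε : ℝ} (he : 0 ≤ e) (hc' : 0 ≤ c')
    {Z Z' : Fin 3 → Set w.X} {nr : w.X → w.X → Prop} {τ : Fin 3 → (w.X → Bool) → w.X → Bool}
    (hD : ∀ γ s, Dich (TP w x₀) (TC w.hull h3) (piX w) w.O (F.bc (mk0 M 5)) (F.bn (mk0 M 5)) s₁ s₂
      (pi3 w.X O3) Sum.inl (patt w.X O3 γ s) (qd (TC w.hull h3) (F.bc (mk0 M 5) (s₁ - 1)) γ)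
      (γ + 1) (γ + 2) γ (Z γ) (Z' γ) (τ γ s))
    (hA : ∀ γ, H953.pr (AltW w.hull x₀ h3 (F.bc (mk0 M 5)) (F.bn (mk0 M 5)) s₁ s₂ γ (Z γ) (Z' γ)
      nr) ≤ t'')
    (hU : ∀ (γ : Fin 3) (f₁ : (w.X → Bool) → w.D),
      (∀ s, ¬ AltW w.hull x₀ h3 (F.bc (mk0 M 5)) (F.bn (mk0 M 5)) s₁ s₂ γ (Z γ) (Z' γ) nr s →
        ∃ m f j₁ i₁ N, CloW w.hull x₀ h3 (F.bc (mk0 M 5)) (F.bn (mk0 M 5)) s₁ s₂ γ (Z γ) (Z' γ) nr
          (τ γ) s m f j₁ i₁ N ∧ f 1 = f₁ s) →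
      (H953.ex fun s => if AltW w.hull x₀ h3 (F.bc (mk0 M 5)) (F.bn (mk0 M 5)) s₁ s₂ γ (Z γ) (Z' γ)
        nr s then 0 else ‖(TP w x₀).cls (τ γ s) (f₁ s) (thP w.hull x₀ Θ)‖ ^ 2) ≤ e ^ 2)
    (hV : ∀ (γ : Fin 3) (J K : (w.X → Bool) → ℕ) (Gd : (w.X → Bool) → Prop),
      (∀ s, Gd s → ∃ m f N, CloW w.hull x₀ h3 (F.bc (mk0 M 5)) (F.bn (mk0 M 5)) s₁ s₂ γ (Z γ)
        (Z' γ) nr (τ γ) s m f (J s) (K s) N) →
      (H953.ex fun s => if Gd s then ‖∑ k ∈ Finset.range (gapL (F.bn (mk0 M 5)) (J s) (K s)),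
        thP w.hull x₀ Θ (cy (F.bc (mk0 M 5)) (F.bn (mk0 M 5)) (J s + k)) +
        z * (((((TP w x₀).src (F.bc (mk0 M 5) (J s))).1 + (1 + Complex.I)) : ℂ) -
          (((TP w x₀).src (F.bc (mk0 M 5) (K s))).1 + (1 + Complex.I)))‖ ^ 2 else 0) ≤
        8 * e ^ 2 + 4 * (‖z‖ ^ 2 * c' ^ 2))
    (hε : 6 * c' + 3 * Real.sqrt t'' * (Real.sqrt (2 * CT κ (2 * 3)) + 2 * 7) ≤ ε) :
    r / 8 * ‖z‖ ≤ 12 * e + ε * (1 + ‖z‖) := by
  have hM0 : 0 < M := by omega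
  have h0 := ms_pos hM0
  have h1 : ms M ≤ 1 := N.ms_le_one
  have hr0 : 0 ≤ r := by linarith
  let := Fintype.ofFinite (CV w.X O3)
  have hbad := hbad_sc hS hM hX (x₀ := x₀) hB.w3 hB.arcPos (r := r) (ω := 1 / 2) hr1
    (by linarith) harm
  have hE := th3_energy hG hin (by linarith) hB.w3
  have key := one_world (h := w.hull) (x₀ := x₀) hB.w3 (W := 2) (δ := ((5 : ℕ) + 1) * ms M)
    (pos := fun v => v.1 + (1 + Complex.I)) (by positivity) (by norm_num) hB.arcPos hΘ.tau him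
    hr0 hbad hΘ.rot (z := z) hD (D0 := 7) hB.pos_le hE hA hU hV
  refine real_step (norm_nonneg z) he (CT_nonneg' _ _) (by norm_num) hc' ?_ key hε
  push_cast
  linarith

section scene2

variable {c : ℝ} {M : ℕ} {T : Set Pt} (h : GoodT c M T) (hM : 0 < M)
  {i : (site T 9 → Bool) × (site T 9 → Bool)} (hi : (fscOf hM h.site.hull).p i ≠ 0)
include hi

/-- **The inequality of one world of the scene.** -/
theorem hone_scene [Fintype (site T 9)] (hM' : 120 ≤ M)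
    {F : Frame M ((fscOf hM h.site.hull).w i) ((fscOf hM h.site.hull).x₀ i)
      ((fscOf hM h.site.hull).col i)} {s₁ s₂ : ℕ} {O3 : Fin 3 → Set ℂ}
    {h3 : Three3 ((fscOf hM h.site.hull).w i).X ((fscOf hM h.site.hull).w i).B O3}
    (hB : CalB F 5 s₁ s₂ O3 h3)
    {κt : ℂ} {κ : ℝ} {Θ : Dt → ℂ} (hΘ : Wt κt κ Θ) (him : 0 < κt.im) {I : Finset (ℂ × ℝ)}
    (hG : GEnv κ Θ 3 (ms M / 1000) I T) {r : ℝ} (hr1 : r ≤ 1) (hr : 480 * ms M ≤ r)
    (harm : ArmLe T (2 * r) (1 / 2) (1 / 2)) {ρ : ℝ} (hρ : 12 * ms M ≤ ρ) {z : ℂ}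
    {e c' t'' ε : ℝ} (he : 0 ≤ e) (hc' : 0 ≤ c')
    (hA : ∀ γ, H953.pr (V := site T 9)
      (AltW ((fscOf hM h.site.hull).w i).hull ((fscOf hM h.site.hull).x₀ i) h3
      (F.bc (mk0 M 5)) (F.bn (mk0 M 5)) s₁ s₂ γ
      (Zn M (site T 9) (agc M γ) (bgc M γ) (12 * ms M)) (Zn M (site T 9) (agc M γ) (bgc M γ) ρ)
      (fun u v => dist u.1 v.1 ≤ ρ)) ≤ t'')
    (hU : ∀ (γ : Fin 3) (f₁ : (site T 9 → Bool) → ((fscOf hM h.site.hull).w i).D),
      (∀ s : site T 9 → Bool, ¬ AltW ((fscOf hM h.site.hull).w i).hull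
        ((fscOf hM h.site.hull).x₀ i) h3
        (F.bc (mk0 M 5)) (F.bn (mk0 M 5)) s₁ s₂ γ
        (Zn M (site T 9) (agc M γ) (bgc M γ) (12 * ms M))
        (Zn M (site T 9) (agc M γ) (bgc M γ) ρ) (fun u v => dist u.1 v.1 ≤ ρ) s →
        ∃ m f j₁ i₁ N, CloW ((fscOf hM h.site.hull).w i).hull ((fscOf hM h.site.hull).x₀ i) h3
          (F.bc (mk0 M 5)) (F.bn (mk0 M 5)) s₁ s₂ γ
          (Zn M (site T 9) (agc M γ) (bgc M γ) (12 * ms M))
          (Zn M (site T 9) (agc M γ) (bgc M γ) ρ) (fun u v => dist u.1 v.1 ≤ ρ)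
          (calT M (site T 9) (agc M γ) (bgc M γ) i.1 i.2) s m f j₁ i₁ N ∧ f 1 = f₁ s) →
      (H953.ex (V := site T 9) fun s => if AltW ((fscOf hM h.site.hull).w i).hull
        ((fscOf hM h.site.hull).x₀ i) h3
        (F.bc (mk0 M 5)) (F.bn (mk0 M 5)) s₁ s₂ γ
        (Zn M (site T 9) (agc M γ) (bgc M γ) (12 * ms M))
        (Zn M (site T 9) (agc M γ) (bgc M γ) ρ) (fun u v => dist u.1 v.1 ≤ ρ) s then 0 else
        ‖(TP ((fscOf hM h.site.hull).w i) ((fscOf hM h.site.hull).x₀ i)).cls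
          (calT M (site T 9) (agc M γ) (bgc M γ) i.1 i.2 s) (f₁ s)
          (thP ((fscOf hM h.site.hull).w i).hull ((fscOf hM h.site.hull).x₀ i) Θ)‖ ^ 2) ≤ e ^ 2)
    (hV : ∀ (γ : Fin 3) (J K : (site T 9 → Bool) → ℕ) (Gd : (site T 9 → Bool) → Prop),
      (∀ s, Gd s → ∃ m f N, CloW ((fscOf hM h.site.hull).w i).hull
          ((fscOf hM h.site.hull).x₀ i) h3
          (F.bc (mk0 M 5)) (F.bn (mk0 M 5)) s₁ s₂ γ
          (Zn M (site T 9) (agc M γ) (bgc M γ) (12 * ms M))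
          (Zn M (site T 9) (agc M γ) (bgc M γ) ρ) (fun u v => dist u.1 v.1 ≤ ρ)
          (calT M (site T 9) (agc M γ) (bgc M γ) i.1 i.2) s m f (J s) (K s) N) →
      (H953.ex (V := site T 9) fun s => if Gd s then
        ‖∑ k ∈ Finset.range (gapL (F.bn (mk0 M 5)) (J s) (K s)),
        thP ((fscOf hM h.site.hull).w i).hull ((fscOf hM h.site.hull).x₀ i) Θ
          (cy (F.bc (mk0 M 5)) (F.bn (mk0 M 5)) (J s + k)) +
        z * (((((TP ((fscOf hM h.site.hull).w i) ((fscOf hM h.site.hull).x₀ i)).src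
            (F.bc (mk0 M 5) (J s))).1 + (1 + Complex.I)) : ℂ) -
          (((TP ((fscOf hM h.site.hull).w i) ((fscOf hM h.site.hull).x₀ i)).src
            (F.bc (mk0 M 5) (K s))).1 + (1 + Complex.I)))‖ ^ 2 else 0) ≤
        8 * e ^ 2 + 4 * (‖z‖ ^ 2 * c' ^ 2))
    (hε : 6 * c' + 3 * Real.sqrt t'' * (Real.sqrt (2 * CT κ (2 * 3)) + 2 * 7) ≤ ε) :
    r / 8 * ‖z‖ ≤ 12 * e + ε * (1 + ‖z‖) := by
  have h0 := ms_pos hM
  let inst : Fintype ((fscOf hM h.site.hull).w i).X := ‹Fintype (site T 9)›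
  exact hone_core (w := (fscOf hM h.site.hull).w i) (x₀ := (fscOf hM h.site.hull).x₀ i) h.site rfl
    hM' (h.inEnv hM hi) hB hΘ him hG hr1 hr harm he hc'
    (fun γ s => scene_dich h hM hi hB (by omega) (r := 12 * ms M) (by linarith) γ
      (Zn_mono hρ) s) hA hU hV hε

end scene2

end Vale.Agent.P148.R2.H897
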