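import Vale.Agent.P148.R2.H897.Cal8x
import Vale.Agent.P148.R2.H112.CalMean

/-!
# Row CAL: the chain of the main cycle, scene half

`wnV` : the window term of a world of the scene, `ev_wnV` : its mean is at most `C ms M`.
`hV_of_pt` : hypothesis `hV` of `oneIn_scene`, from a pointwise bound of the chain.
-/

set_option linter.unusedSectionVars false

open Set Function Relation Metric
open scoped Classical ENNReal
open Vale.Agent.P148.R2.H258 Vale.Agent.P148.R2.H258.Tri Vale.Agent.P148.R2.H659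
  Vale.Agent.P148.R2.H871 Vale.Agent.P148.R2.H592
  Vale.Agent.P148.R2.H184 Vale.Agent.P148.R2.H203 Vale.Agent.P148.R2.H910
  Vale.Agent.P148.R2.H251 Vale.Agent.P148.R2.H838 Vale.Agent.P148.R2.H953
open _root_.P148 _root_.P148.H729

namespace Vale.Agent.P148.R2.H897

open Vale.Agent.P148.R2.N (ms nc ms_pos)
open Vale.Agent.P148.R2.H566 (W0 Ev EvMean)
open Vale.Agent.P148.R2.H598 (dv)
open Vale.Agent.P148.R2.H609 (TP piX)
open Vale.Agent.P148.R2.H172 (Frame GoodT FScene fsc fsc_eq fscOf mc)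
open Vale.Agent.P148.R2.H959 (Mrk ag bg mk0 mk1 mk2 CalB)
open Vale.Agent.P148.R2.H678 (cw wd)
open Vale.Agent.P148.R2.H995 (nsup Zn calT)
open Vale.Agent.P148.R2.H291 (site bR SiteOK GEnv CT InEnv)
open Vale.Agent.P148.R2.H488 (hc)
open Vale.Agent.P148.R2.H532 (WX)
open Vale.Agent.P148.R2.H126 (rf Rs)
open Vale.Agent.P148.R2.H409 (NX)
open Vale.Agent.P148.R2.H112 (ThkE ex_chain_le)

universe u

/-- The window term of a world of the scene. -/
noncomputable def wnV {M : ℕ} (S : FScene M) (κ : ℝ) (Θ : Dt → ℂ) (i : S.ι) : ℝ≥0∞ :=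
  6 * wnF S Θ (mk0 M 5) (mk1 M 5) (mk2 M 5) i +
    ENNReal.ofReal (6 * (nc M * (CT κ 2 * ms M ^ 2)))

theorem mk_gap {M : ℕ} (hM : 13 ≤ M) (γ : Fin 3) :
    ag (mk0 M 5) (mk1 M 5) (mk2 M 5) γ + 13 ≤ bg M (mk0 M 5) (mk1 M 5) (mk2 M 5) γ := by
  unfold ag bg mk0 mk1 mk2 nc
  split_ifs <;> omega

/-- **The mean of the window term.** -/
theorem ev_wnV {τ : ℂ} {κ : ℝ} {Θ : Dt → ℂ} (hΘ : Wt τ κ Θ) : ∃ C : ℝ, 0 ≤ C ∧
    ∀ M : ℕ, 13 ≤ M → ∃ G : Set Pt → Prop, Ev.{u} G ∧ ∀ T, G T →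
      ∑ i, (fsc M T).p i * wnV (fsc M T) κ Θ i ≤ ENNReal.ofReal (C * ms M) := by
  obtain ⟨C, hC, hw⟩ := ev_wn.{u} hΘ
  obtain ⟨c, hc0, hg⟩ := H172.exists_goodT.{u}
  have hCT : 0 ≤ CT κ 2 := H729.CT_nonneg _ _
  refine ⟨6 * C + 72 * CT κ 2, by positivity, fun M hM => ?_⟩
  have hM0 : 0 < M := by omega
  have h0 := ms_pos hM0
  obtain ⟨G, hG, hb⟩ := hw M hM0 (mk0 M 5) (mk1 M 5) (mk2 M 5)
    fun γ => by have := mk_gap hM γ; omega
  refine ⟨fun T => G T ∧ GoodT c M T, hG.and (hg M hM0), ?_⟩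
  rintro T ⟨h1, h2⟩
  have hsum : ∑ i, (fsc M T).p i = 1 := by
    rw [fsc_eq hM0 h2.site]
    exact h2.sum_p hc0 hM0
  have hnc := nc_ms_le hM0
  unfold wnV
  simp_rw [mul_add]
  rw [Finset.sum_add_distrib, ← Finset.sum_mul, hsum, one_mul]
  have e1 : ∑ i, (fsc M T).p i * (6 * wnF (fsc M T) Θ (mk0 M 5) (mk1 M 5) (mk2 M 5) i) =
      6 * ∑ i, (fsc M T).p i * wnF (fsc M T) Θ (mk0 M 5) (mk1 M 5) (mk2 M 5) i := by
    rw [Finset.mul_sum]
    exact Finset.sum_congr rfl fun i _ => mul_left_comm _ _ _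
  rw [e1]
  have e2 : (6 : ℝ≥0∞) = ENNReal.ofReal 6 := by simp
  calc 6 * ∑ i, (fsc M T).p i * wnF (fsc M T) Θ (mk0 M 5) (mk1 M 5) (mk2 M 5) i +
        ENNReal.ofReal (6 * (nc M * (CT κ 2 * ms M ^ 2)))
      ≤ 6 * ENNReal.ofReal (C * ms M) + ENNReal.ofReal (6 * (nc M * (CT κ 2 * ms M ^ 2))) := by
        gcongr
        exact (hb T h1).2
    _ = ENNReal.ofReal (6 * (C * ms M) + 6 * (nc M * (CT κ 2 * ms M ^ 2))) := by
        rw [e2, ← ENNReal.ofReal_mul (by norm_num), ← ENNReal.ofReal_add (by positivity)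
          (by positivity)]
    _ ≤ ENNReal.ofReal ((6 * C + 72 * CT κ 2) * ms M) := by
        apply ENNReal.ofReal_le_ofReal
        have h3 : (nc M : ℝ) * (CT κ 2 * ms M ^ 2) ≤ 12 * (CT κ 2 * ms M) := by
          calc (nc M : ℝ) * (CT κ 2 * ms M ^ 2) = (nc M * ms M) * (CT κ 2 * ms M) := by ring
            _ ≤ 12 * (CT κ 2 * ms M) := by gcongr
        linarith

section scene

variable {c : ℝ} {M : ℕ} {T : Set Pt} (h : GoodT c M T) (hM : 0 < M)
  {i : (site T 9 → Bool) × (site T 9 → Bool)} (hi : (fscOf hM h.site.hull).p i ≠ 0)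
include hi

/-- **Hypothesis `hV` of `oneIn_scene`**, from a pointwise bound of the chain. -/
theorem hV_of_pt [Fintype (site T 9)] (hM' : 120 ≤ M)
    {F : Frame M ((fscOf hM h.site.hull).w i) ((fscOf hM h.site.hull).x₀ i)
      ((fscOf hM h.site.hull).col i)} {s₁ s₂ : ℕ} {O3 : Fin 3 → Set ℂ}
    {h3 : Three3 ((fscOf hM h.site.hull).w i).X ((fscOf hM h.site.hull).w i).B O3}
    (hB : CalB F 5 s₁ s₂ O3 h3)
    {κt : ℂ} {κ : ℝ} {Θ : Dt → ℂ} (hΘ : Wt κt κ Θ) (hE : ThkE T M Θ (CT κ 2 * ms M ^ 2))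
    {C ρ : ℝ} (hC : 24 ≤ C) {v : ℕ → ℂ} {nr : site T 9 → site T 9 → Prop}
    (hpt : ∀ (z : ℂ) (D : ℝ), 0 ≤ D → dv M z v ≤ ENNReal.ofReal D →
      ∀ (γ : Fin 3) (s : site T 9 → Bool) (m : ℕ) (f : ℕ → ((fscOf hM h.site.hull).w i).D)
        (j₁ i₁ N : ℕ),
      CloW ((fscOf hM h.site.hull).w i).hull
          ((fscOf hM h.site.hull).x₀ i) h3
          (F.bc (mk0 M 5)) (F.bn (mk0 M 5)) s₁ s₂ γ
          (Zn M (site T 9) (agc M γ) (bgc M γ) (12 * ms M))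
          (Zn M (site T 9) (agc M γ) (bgc M γ) ρ) nr
          (calT M (site T 9) (agc M γ) (bgc M γ) i.1 i.2) s m f j₁ i₁ N →
      ‖∑ k ∈ Finset.range (gapL (F.bn (mk0 M 5)) j₁ i₁),
        thP ((fscOf hM h.site.hull).w i).hull ((fscOf hM h.site.hull).x₀ i) Θ
          (cy (F.bc (mk0 M 5)) (F.bn (mk0 M 5)) (j₁ + k)) +
        z * (((((TP ((fscOf hM h.site.hull).w i) ((fscOf hM h.site.hull).x₀ i)).src
            (F.bc (mk0 M 5) j₁)).1 + (1 + Complex.I)) : ℂ) -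
          (((TP ((fscOf hM h.site.hull).w i) ((fscOf hM h.site.hull).x₀ i)).src
            (F.bc (mk0 M 5) i₁)).1 + (1 + Complex.I)))‖ ^ 2 ≤
        4 * D + 4 * (‖z‖ ^ 2 * (24 * ms M) ^ 2) +
        12 * ∑ k ∈ Finset.Icc (bgc M γ - 1) (agc M γ + nc M),
          (2 * WX (H400.TP ((fscOf hM h.site.hull).w i).hull ((fscOf hM h.site.hull).x₀ i))
            (Nat.card (Fc ((fscOf hM h.site.hull).w i).X ((fscOf hM h.site.hull).w i).b ×
              ZMod 3)) (NX ((fscOf hM h.site.hull).w i).X M 2 k)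
            (rf ((fscOf hM h.site.hull).w i).hull ((fscOf hM h.site.hull).x₀ i) M
              ((fscOf hM h.site.hull).col i) (agc M γ + 6),
             rf ((fscOf hM h.site.hull).w i).hull ((fscOf hM h.site.hull).x₀ i) M
              ((fscOf hM h.site.hull).col i) (bgc M γ - 6)) ((fscOf hM h.site.hull).col i)
            (wt ((fscOf hM h.site.hull).w i).hull (idmap ((fscOf hM h.site.hull).w i).X
              ((fscOf hM h.site.hull).x₀ i)) (fib_id ((fscOf hM h.site.hull).w i).X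
              ((fscOf hM h.site.hull).x₀ i)) (H488.cw (hc M k) Θ))
            (glue (Rs (H400.TP ((fscOf hM h.site.hull).w i).hull
              ((fscOf hM h.site.hull).x₀ i))
              (Nat.card (Fc ((fscOf hM h.site.hull).w i).X ((fscOf hM h.site.hull).w i).b ×
                ZMod 3)) (NX ((fscOf hM h.site.hull).w i).X M 2 k)
              (NX ((fscOf hM h.site.hull).w i).X M 3 k)
              (rf ((fscOf hM h.site.hull).w i).hull ((fscOf hM h.site.hull).x₀ i) M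
                ((fscOf hM h.site.hull).col i) (agc M γ + 6)) ((fscOf hM h.site.hull).col i))
              ((fscOf hM h.site.hull).col i) s) +
          2 * ‖∑ l ∈ Finset.Ico 1 m, thP ((fscOf hM h.site.hull).w i).hull
            ((fscOf hM h.site.hull).x₀ i) (H488.cw (hc M k) Θ) (f l)‖ ^ 2)) :
    ∀ (z : ℂ) (D Wn : ℝ), 0 ≤ D → 0 ≤ Wn → dv M z v ≤ ENNReal.ofReal D →
      wnV (fscOf hM h.site.hull) κ Θ i ≤ ENNReal.ofReal Wn →
      ∀ (γ : Fin 3) (J K : (site T 9 → Bool) → ℕ) (Gd : (site T 9 → Bool) → Prop),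
      (∀ s, Gd s → ∃ m f N, CloW ((fscOf hM h.site.hull).w i).hull
          ((fscOf hM h.site.hull).x₀ i) h3
          (F.bc (mk0 M 5)) (F.bn (mk0 M 5)) s₁ s₂ γ
          (Zn M (site T 9) (agc M γ) (bgc M γ) (12 * ms M))
          (Zn M (site T 9) (agc M γ) (bgc M γ) ρ) nr
          (calT M (site T 9) (agc M γ) (bgc M γ) i.1 i.2) s m f (J s) (K s) N) →
      (H953.ex (V := site T 9) fun s => if Gd s then
        ‖∑ k ∈ Finset.range (gapL (F.bn (mk0 M 5)) (J s) (K s)),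
        thP ((fscOf hM h.site.hull).w i).hull ((fscOf hM h.site.hull).x₀ i) Θ
          (cy (F.bc (mk0 M 5)) (F.bn (mk0 M 5)) (J s + k)) +
        z * (((((TP ((fscOf hM h.site.hull).w i) ((fscOf hM h.site.hull).x₀ i)).src
            (F.bc (mk0 M 5) (J s))).1 + (1 + Complex.I)) : ℂ) -
          (((TP ((fscOf hM h.site.hull).w i) ((fscOf hM h.site.hull).x₀ i)).src
            (F.bc (mk0 M 5) (K s))).1 + (1 + Complex.I)))‖ ^ 2 else 0) ≤
        4 * D + 4 * Wn + 4 * (‖z‖ ^ 2 * (C * ms M) ^ 2) := by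
  intro z D Wn hD hWn hdv hwn γ J K Gd hGd
  have h0 := ms_pos hM
  let inst : Fintype ((fscOf hM h.site.hull).w i).X := ‹Fintype (site T 9)›
  let := Fintype.ofFinite (CV ((fscOf hM h.site.hull).w i).X O3)
  have hCT : 0 ≤ CT κ 2 := H729.CT_nonneg _ _
  have key := ex_chain_le (w := (fscOf hM h.site.hull).w i) (x₀ := (fscOf hM h.site.hull).x₀ i)
    hB.w3 (E := CT κ 2 * ms M ^ 2) (by positivity) hE rfl rfl hΘ.tau hΘ.rot (g₀ := mk0 M 5)
    (g₁ := mk1 M 5) (g₂ := mk2 M 5) γ (by have := mk_gap (M := M) (by omega) γ; omega)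
    (col := (fscOf hM h.site.hull).col i) (Gd := Gd)
    (DV := fun s => ‖∑ k ∈ Finset.range (gapL (F.bn (mk0 M 5)) (J s) (K s)),
        thP ((fscOf hM h.site.hull).w i).hull ((fscOf hM h.site.hull).x₀ i) Θ
          (cy (F.bc (mk0 M 5)) (F.bn (mk0 M 5)) (J s + k)) +
        z * (((((TP ((fscOf hM h.site.hull).w i) ((fscOf hM h.site.hull).x₀ i)).src
            (F.bc (mk0 M 5) (J s))).1 + (1 + Complex.I)) : ℂ) -
          (((TP ((fscOf hM h.site.hull).w i) ((fscOf hM h.site.hull).x₀ i)).src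
            (F.bc (mk0 M 5) (K s))).1 + (1 + Complex.I)))‖ ^ 2)
    (A := 4 * D + 4 * (‖z‖ ^ 2 * (24 * ms M) ^ 2)) (by positivity) (fun s hs => by
      obtain ⟨m, f, N, hc⟩ := hGd s hs
      exact ⟨m, f, J s, K s, hc.path, hpt z D hD hdv γ s m f (J s) (K s) N hc⟩)
  refine key.trans ?_
  have h5 : 6 * wnr ((fscOf hM h.site.hull).w i).hull ((fscOf hM h.site.hull).x₀ i) M Θ
      (mk0 M 5) (mk1 M 5) (mk2 M 5) ((fscOf hM h.site.hull).col i) +
      6 * (nc M * (CT κ 2 * ms M ^ 2)) ≤ Wn := by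
    unfold wnV at hwn
    have e := wnF_eq (S := fscOf hM h.site.hull) (Θ := Θ) (g₀ := mk0 M 5) (g₁ := mk1 M 5)
      (g₂ := mk2 M 5) (i := i)
    rw [show wnF (fscOf hM h.site.hull) Θ (mk0 M 5) (mk1 M 5) (mk2 M 5) i = _ from e] at hwn
    have e2 : (6 : ℝ≥0∞) = ENNReal.ofReal 6 := by simp
    rw [e2, ← ENNReal.ofReal_mul (by norm_num), ← ENNReal.ofReal_add
      (mul_nonneg (by norm_num) (wnr_nonneg _ _ _ _ _ _ _ _)) (by positivity)] at hwn
    exact (ENNReal.ofReal_le_ofReal_iff hWn).1 hwn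
  have h6 : (24 * ms M) ^ 2 ≤ (C * ms M) ^ 2 := by gcongr
  have h7 : ‖z‖ ^ 2 * (24 * ms M) ^ 2 ≤ ‖z‖ ^ 2 * (C * ms M) ^ 2 := by gcongr
  linarith

end scene

end Vale.Agent.P148.R2.H897
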