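import Vale.Agent.P148.R2.H897.CalClose

/-!
# Row CAL: what the strand of the outer class sees

`q` is a minority dart of `T3` (the outer face), `d` the first and `g` the last member of its class
other than `q`, at the times `k1 ≤ kg` of the strand of `q`.  `Fr` is the set of the free vertices of
the plane, `Z` a zone where the plane colouring `w` and the colouring of the world may disagree.

* `Spn.of_rel` : all other members are met between `k1` and `kg`, and the left side is free between;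
* `Spn.black`  : what is seen between `k1` and `kg` is near a free path of the majority colour which
  goes from a neighbour of the landing vertex of `d` to a neighbour of that of `g`;
* `white_link` : either the minority side of `d` is joined in `w` to a real vertex of the class of
  `tgt q`, off the zone and adjacent to a free vertex, or there is a free path of the minority colour
  from the zone to `tgt d`;
* `white_reach` : a free path of the minority colour from `tgt d` to the class of `tgt q`;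
* `Spn.agree`, `Spn.coly` : the plane colouring agrees with the world on what is seen.
-/

namespace Vale.Agent.P148.R2.H897

open Function Vale.Agent.P148.R2.H258 Vale.Agent.P148.R2.H871 Vale.Agent.P148.R2.H838

variable {V V3 D : Type*} {T : Tri V D} {T3 : Tri V3 D} {π : V → V3}

/-- Adjacent or equal. -/
def Nb (T : Tri V D) (u z : V) : Prop := u = z ∨ ∃ e, T.src e = u ∧ T.tgt e = z

/-- Adjacent to a vertex of `F`. -/
def Tch (T : Tri V D) (F : Set V) (v : V) : Prop := ∃ e, T.src e = v ∧ T.tgt e ∈ F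

/-- The free vertices. -/
def Fre (π : V → V3) (T3 : Tri V3 D) (q : D) : Set V :=
  {v | π v ≠ T3.src q ∧ π v ≠ T3.tgt q ∧ π v ≠ T3.apex q}

/-! ### real steps of the strand -/

section step

variable {σ : V3 → Bool} {e : D}

theorem tgt_step_mi (hC : Contr T T3 π) (hm : T3.Mi σ e) : T.tgt (T3.st σ e) = T.tgt e := by
  rw [T3.st_mi hm, hC.rev, hC.nxt, T.tgt_rev, T.src_nxt']

theorem tgt_step_nmi (hC : Contr T T3 π) (hb : T3.Bi σ e) (hm : ¬ T3.Mi σ e) :
    T.tgt (T3.st σ e) = T.apex e := by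
  rw [T3.st_nmi hb hm, hC.rev, hC.nxt, hC.nxt, T.tgt_rev, T.src_nxt2]

theorem src_step_mi (hC : Contr T T3 π) (hm : T3.Mi σ e) : T.src (T3.st σ e) = T.apex e := by
  rw [T3.st_mi hm, hC.rev, hC.nxt, T.src_rev, T.tgt_nxt]

theorem src_step_nmi (hC : Contr T T3 π) (hb : T3.Bi σ e) (hm : ¬ T3.Mi σ e) :
    T.src (T3.st σ e) = T.src e := by
  rw [T3.st_nmi hb hm, hC.rev, hC.nxt, hC.nxt, T.src_rev, T.tgt_nxt2]

end step

variable {σ : V3 → Bool} {q d g : D}

theorem succ_st (σ : V3 → Bool) (q : D) (t : ℕ) :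
    (T3.st σ)^[t + 1] q = T3.st σ ((T3.st σ)^[t] q) := by
  rw [iterate_succ', comp_apply]

/-- A minority vertex seen by the strand of `q` which is not in the class of `tgt q` is free. -/
theorem tgt_free (hC : Contr T T3 π) (hq : T3.Mi σ q) {t : ℕ}
    (h : T3.tgt ((T3.st σ)^[t] q) ≠ T3.tgt q) : T.tgt ((T3.st σ)^[t] q) ∈ Fre π T3 q := by
  have h1 := T3.col_tgt_iter σ q t
  refine ⟨?_, ?_, ?_⟩
  · intro h2; rw [← hC.tgt] at h2; rw [h2] at h1; exact hq.1 h1
  · intro h2; rw [← hC.tgt] at h2; exact h h2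
  · intro h2; rw [← hC.tgt] at h2; rw [h2, hq.2] at h1; exact hq.1 h1

/-- A majority vertex seen by the strand of `q` which is not in the classes of `src q`, `apex q` is
free. -/
theorem src_free (hC : Contr T T3 π) (hq : T3.Mi σ q) {t : ℕ}
    (h : T3.src ((T3.st σ)^[t] q) ≠ T3.src q) (h' : T3.src ((T3.st σ)^[t] q) ≠ T3.apex q) :
    T.src ((T3.st σ)^[t] q) ∈ Fre π T3 q := by
  have h1 := T3.col_src_iter σ q t
  refine ⟨?_, ?_, ?_⟩
  · intro h2; rw [← hC.src] at h2; exact h h2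
  · intro h2; rw [← hC.src] at h2; rw [h2] at h1; exact hq.1 h1.symm
  · intro h2; rw [← hC.src] at h2; exact h' h2

/-- The right walk, as long as it is free. -/
theorem white_walk (hC : Contr T T3 π) (hq : T3.Bi σ q) {F : Set V} {s t : ℕ} (hst : s ≤ t)
    (hf : ∀ k, s ≤ k → k ≤ t → T.tgt ((T3.st σ)^[k] q) ∈ F) :
    Joined T (fun v => σ (π v)) (σ (T3.tgt q)) F (T.tgt ((T3.st σ)^[s] q))
      (T.tgt ((T3.st σ)^[t] q)) := by
  have hcol : ∀ k, σ (π (T.tgt ((T3.st σ)^[k] q))) = σ (T3.tgt q) := fun k => by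
    rw [← hC.tgt]; exact T3.col_tgt_iter σ q k
  induction t with
  | zero =>
    have : s = 0 := by omega
    subst this
    exact H838.Joined.refl (hf 0 le_rfl le_rfl) (hcol 0)
  | succ t ih =>
    rcases Nat.lt_or_ge t s with h1 | h1
    · have : s = t + 1 := by omega
      subst this
      exact H838.Joined.refl (hf _ le_rfl le_rfl) (hcol _)
    · have h2 := ih h1 (fun k a b => hf k a (by omega))
      refine h2.trans ?_
      have hb : T3.Bi σ ((T3.st σ)^[t] q) := (T3.bi_iter t).2 hq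
      by_cases hm : T3.Mi σ ((T3.st σ)^[t] q)
      · rw [succ_st, tgt_step_mi hC hm]
        exact H838.Joined.refl (hf t h1 (by omega)) (hcol t)
      · have h3 : T.tgt ((T3.st σ)^[t + 1] q) = T.apex ((T3.st σ)^[t] q) := by
          rw [succ_st, tgt_step_nmi hC hb hm]
        have h4 : T.tgt (T.nxt ((T3.st σ)^[t] q)) = T.tgt ((T3.st σ)^[t + 1] q) := by
          rw [T.tgt_nxt]; exact h3.symm
        have h5 : Joined T (fun v => σ (π v)) (σ (T3.tgt q)) F
            (T.tgt ((T3.st σ)^[t + 1] q)) (T.tgt ((T3.st σ)^[t + 1] q)) :=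
          H838.Joined.refl (hf (t + 1) (by omega) le_rfl) (hcol (t + 1))
        exact Joined.cons (T.src_nxt' _) h4 (hf t h1 (by omega)) (hcol t) h5

/-- The left walk, as long as it is free. -/
theorem black_walk (hC : Contr T T3 π) (hq : T3.Bi σ q) {F : Set V} {s t : ℕ} (hst : s ≤ t)
    (hf : ∀ k, s ≤ k → k ≤ t → T.src ((T3.st σ)^[k] q) ∈ F) :
    Joined T (fun v => σ (π v)) (σ (T3.src q)) F (T.src ((T3.st σ)^[s] q))
      (T.src ((T3.st σ)^[t] q)) := by
  have hcol : ∀ k, σ (π (T.src ((T3.st σ)^[k] q))) = σ (T3.src q) := fun k => by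
    rw [← hC.src]; exact T3.col_src_iter σ q k
  induction t with
  | zero =>
    have : s = 0 := by omega
    subst this
    exact H838.Joined.refl (hf 0 le_rfl le_rfl) (hcol 0)
  | succ t ih =>
    rcases Nat.lt_or_ge t s with h1 | h1
    · have : s = t + 1 := by omega
      subst this
      exact H838.Joined.refl (hf _ le_rfl le_rfl) (hcol _)
    · have h2 := ih h1 (fun k a b => hf k a (by omega))
      refine h2.trans ?_
      have hb : T3.Bi σ ((T3.st σ)^[t] q) := (T3.bi_iter t).2 hq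
      by_cases hm : T3.Mi σ ((T3.st σ)^[t] q)
      · have h3 : T.src ((T3.st σ)^[t + 1] q) = T.apex ((T3.st σ)^[t] q) := by
          rw [succ_st, src_step_mi hC hm]
        have h3' : T.src (T.rev (T.nxt (T.nxt ((T3.st σ)^[t] q)))) = T.src ((T3.st σ)^[t] q) := by
          rw [T.src_rev, T.tgt_nxt2]
        have h4 : T.tgt (T.rev (T.nxt (T.nxt ((T3.st σ)^[t] q)))) =
            T.src ((T3.st σ)^[t + 1] q) := by
          rw [T.tgt_rev, T.src_nxt2]; exact h3.symm
        have h5 : Joined T (fun v => σ (π v)) (σ (T3.src q)) F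
            (T.src ((T3.st σ)^[t + 1] q)) (T.src ((T3.st σ)^[t + 1] q)) :=
          H838.Joined.refl (hf (t + 1) (by omega) le_rfl) (hcol (t + 1))
        exact Joined.cons h3' h4 (hf t h1 (by omega)) (hcol t) h5
      · rw [succ_st, src_step_nmi hC hb hm]
        exact H838.Joined.refl (hf t h1 (by omega)) (hcol t)

/-! ### the span of the class -/

/-- The members of the class of `q` other than `q` are between the times `k1` and `kg`. -/
structure Spn (T3 : Tri V3 D) (σ : V3 → Bool) (q d g : D) (k1 kg : ℕ) : Prop where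
  mi : T3.Mi σ q
  ed : (T3.st σ)^[k1] q = d
  eg : (T3.st σ)^[kg] q = g
  le : k1 ≤ kg
  mid : T3.Mi σ d
  mig : T3.Mi σ g
  mem : ∀ f, T3.Rel σ q f → f ≠ q → ∃ n ≤ kg - k1, (T3.st σ)^[n] d = f
  free : ∀ t, k1 < t → t ≤ kg → T3.src ((T3.st σ)^[t] q) ≠ T3.src q ∧
    T3.src ((T3.st σ)^[t] q) ≠ T3.apex q

theorem Spn.of_rel [Finite D] (hgo : T3.apex q ≠ T3.src q) (hd : T3.Rel σ q d)
    (hds : T3.src d = T3.apex q) (hg : T3.Rel σ q g) (hga : T3.apex g = T3.src q) :
    ∃ k1 kg, Spn T3 σ q d g k1 kg := by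
  obtain ⟨hq, hmd, k1, hk1, e1, D1⟩ := hd
  obtain ⟨-, hmg, kg, hkg, eg, Dg⟩ := hg
  have h01 : T3.src ((T3.st σ)^[1] q) = T3.apex q := T3.src_iter_one hq
  have hper : T3.src ((T3.st σ)^[minimalPeriod (T3.st σ) q] q) = T3.src q := by
    rw [iterate_minimalPeriod]
  have hk1pos : 1 ≤ k1 := by
    rcases Nat.eq_zero_or_pos k1 with h | h
    · exfalso
      rw [h] at e1
      rw [iterate_zero, id] at e1
      rw [← e1] at hds
      exact hgo hds.symm
    · exact h
  have hkgpos : 1 ≤ kg := by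
    rcases Nat.eq_zero_or_pos kg with h | h
    · exfalso
      rw [h] at eg
      rw [iterate_zero, id] at eg
      rw [← eg] at hga
      exact hgo hga
    · exact h
  have hle : k1 ≤ kg := by
    by_contra hc
    push Not at hc
    apply Dg 1 k1 le_rfl hkgpos hc hk1.le
    rw [h01, e1, hds]
  have hsg : T3.src ((T3.st σ)^[kg + 1] q) = T3.src q := by
    rw [succ_st, eg, T3.src_st_mi hmg, hga]
  refine ⟨k1, kg, hq, e1, eg, hle, hmd, hmg, ?_, ?_⟩
  · rintro f ⟨-, -, k, hk, ef, Dk⟩ hfq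
    have hkpos : 1 ≤ k := by
      rcases Nat.eq_zero_or_pos k with h | h
      · exfalso
        rw [h] at ef
        rw [iterate_zero, id] at ef
        exact hfq ef.symm
      · exact h
    have h1 : k1 ≤ k := by
      by_contra hc
      push Not at hc
      apply Dk 1 k1 le_rfl hkpos hc hk1.le
      rw [h01, e1, hds]
    have h2 : k ≤ kg := by
      by_contra hc
      push Not at hc
      apply Dk (kg + 1) _ (by omega) (by omega) hk le_rfl
      rw [hsg, hper]
    refine ⟨k - k1, by omega, ?_⟩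
    rw [← e1, ← iterate_add_apply, Nat.sub_add_cancel h1, ef]
  · intro t ht1 ht2
    constructor
    · rw [← hper]
      exact Dg t _ (by omega) ht2 hkg le_rfl
    · rw [← h01]
      exact (D1 1 t le_rfl hk1pos ht1 (by omega)).symm

theorem Spn.src_free {k1 kg : ℕ} (hC : Contr T T3 π) (h : Spn T3 σ q d g k1 kg) {t : ℕ}
    (h1 : k1 < t) (h2 : t ≤ kg) : T.src ((T3.st σ)^[t] q) ∈ Fre π T3 q :=
  H897.src_free hC h.mi (h.free t h1 h2).1 (h.free t h1 h2).2

/-- What is seen between `k1` and `kg`. -/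
def Seen (T : Tri V D) (T3 : Tri V3 D) (σ : V3 → Bool) (q : D) (k1 kg : ℕ) : Set V :=
  {v | ∃ t, k1 ≤ t ∧ t ≤ kg ∧ (v = T.src ((T3.st σ)^[t] q) ∨ v = T.tgt ((T3.st σ)^[t] q) ∨
    v = T.apex ((T3.st σ)^[t] q))}

theorem nb_src {e : D} {z : V} (h : z = T.src e ∨ z = T.tgt e ∨ z = T.apex e) :
    Nb T (T.src e) z := by
  rcases h with rfl | rfl | rfl
  · exact Or.inl rfl
  · exact Or.inr ⟨e, rfl, rfl⟩
  · exact Or.inr ⟨T.rev (T.nxt (T.nxt e)), by rw [T.src_rev, T.tgt_nxt2], by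
      rw [T.tgt_rev, T.src_nxt2]⟩

theorem nb_tgt {e : D} {z : V} (h : z = T.src e ∨ z = T.tgt e ∨ z = T.apex e) :
    Nb T (T.tgt e) z := by
  rcases h with rfl | rfl | rfl
  · exact Or.inr ⟨T.rev e, T.src_rev e, T.tgt_rev e⟩
  · exact Or.inl rfl
  · exact Or.inr ⟨T.nxt e, T.src_nxt' e, T.tgt_nxt e⟩

theorem nb_apex {e : D} {z : V} (h : z = T.src e ∨ z = T.tgt e ∨ z = T.apex e) :
    Nb T (T.apex e) z := by
  rcases h with rfl | rfl | rfl
  · exact Or.inr ⟨T.nxt (T.nxt e), T.src_nxt2 e, T.tgt_nxt2 e⟩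
  · exact Or.inr ⟨T.rev (T.nxt e), by rw [T.src_rev, T.tgt_nxt], by rw [T.tgt_rev, T.src_nxt']⟩
  · exact Or.inl rfl

/-- **Black arm.** If `z` is seen between `k1` and `kg` and `k1 < kg`, then a free majority path
joins a vertex equal or adjacent to `z` to `apex d` (adjacent to `src d`) and to `src g` (adjacent to
`apex g`). -/
theorem Spn.black {k1 kg : ℕ} (hC : Contr T T3 π) (h : Spn T3 σ q d g k1 kg) (hlt : k1 < kg)
    {z : V} (hz : z ∈ Seen T T3 σ q k1 kg) :
    ∃ u, Nb T u z ∧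
      Joined T (fun v => σ (π v)) (σ (T3.src q)) (Fre π T3 q) u (T.apex d) ∧
      Joined T (fun v => σ (π v)) (σ (T3.src q)) (Fre π T3 q) u (T.src g) := by
  obtain ⟨t, h1, h2, h3⟩ := hz
  have hd1 : T.src ((T3.st σ)^[k1 + 1] q) = T.apex d := by
    rw [succ_st, h.ed, src_step_mi hC h.mid]
  have hfr : ∀ a b, k1 < a → b ≤ kg → ∀ k, a ≤ k → k ≤ b →
      T.src ((T3.st σ)^[k] q) ∈ Fre π T3 q := fun a b ha hb k hk1 hk2 =>
    h.src_free hC (by omega) (by omega)
  rcases Nat.eq_or_lt_of_le h1 with h4 | h4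
  · refine ⟨T.apex d, ?_, ?_, ?_⟩
    · rw [← h4, h.ed] at h3
      exact nb_apex h3
    · rw [← hd1]
      exact black_walk hC h.mi.bi le_rfl (hfr _ _ (by omega) (by omega))
    · rw [← hd1, ← h.eg]
      exact black_walk hC h.mi.bi (by omega) (hfr _ _ (by omega) le_rfl)
  · refine ⟨_, nb_src h3, ?_, ?_⟩
    · rw [← hd1]
      exact (black_walk hC h.mi.bi (by omega) (hfr _ _ (by omega) h2)).symm
    · rw [← h.eg]
      exact black_walk hC h.mi.bi h2 (hfr _ _ h4 le_rfl)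

/-! ### the minority side -/

theorem exists_contact (hC : Contr T T3 π) (hq : T3.Mi σ q) (k1 : ℕ) :
    ∃ t1 ≤ k1, T3.tgt ((T3.st σ)^[t1] q) = T3.tgt q ∧
      ∀ t, t1 < t → t ≤ k1 → T.tgt ((T3.st σ)^[t] q) ∈ Fre π T3 q := by
  classical
  set Q : ℕ → Prop := fun t => T3.tgt ((T3.st σ)^[t] q) = T3.tgt q with hQ
  have h0 : Q 0 := rfl
  have h1 := Nat.findGreatest_spec (P := Q) (Nat.zero_le k1) h0
  refine ⟨Nat.findGreatest Q k1, Nat.findGreatest_le _, h1, ?_⟩
  intro t ht1 ht2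
  apply tgt_free hC hq
  intro h2
  exact Nat.findGreatest_is_greatest (P := Q) ht1 ht2 h2

/-- The last contact before `k1`, when it is before `k1`. -/
theorem contact_step (hC : Contr T T3 π) (hq : T3.Mi σ q) {t1 k1 : ℕ} (hlt : t1 < k1)
    (h1 : T3.tgt ((T3.st σ)^[t1] q) = T3.tgt q)
    (h2 : ∀ t, t1 < t → t ≤ k1 → T.tgt ((T3.st σ)^[t] q) ∈ Fre π T3 q) :
    T.tgt ((T3.st σ)^[t1 + 1] q) = T.apex ((T3.st σ)^[t1] q) := by
  have h3 := h2 (t1 + 1) (by omega) hlt
  have hb : T3.Bi σ ((T3.st σ)^[t1] q) := (T3.bi_iter t1).2 hq.bi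
  by_cases hm : T3.Mi σ ((T3.st σ)^[t1] q)
  · exfalso
    rw [succ_st, tgt_step_mi hC hm] at h3
    apply h3.2.1
    rw [← hC.tgt, h1]
  · rw [succ_st, tgt_step_nmi hC hb hm]

/-- **Free minority path to the class of `tgt q`.** -/
theorem white_reach (hC : Contr T T3 π) (hq : T3.Mi σ q) {k1 : ℕ}
    (hd : (T3.st σ)^[k1] q = d) :
    T3.tgt d = T3.tgt q ∨ ∃ u p, (∃ e, T.src e = u ∧ T.tgt e = p) ∧ π p = T3.tgt q ∧
      Joined T (fun v => σ (π v)) (σ (T3.tgt q)) (Fre π T3 q) u (T.tgt d) := by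
  obtain ⟨t1, ht1, h1, h2⟩ := exists_contact (T := T) hC hq k1
  rcases Nat.eq_or_lt_of_le ht1 with h3 | h3
  · left; rw [← hd, ← h3]; exact h1
  · right
    have h4 := contact_step hC hq h3 h1 h2
    refine ⟨T.tgt ((T3.st σ)^[t1 + 1] q), T.tgt ((T3.st σ)^[t1] q), ?_, ?_, ?_⟩
    · refine ⟨T.rev (T.nxt ((T3.st σ)^[t1] q)), ?_, ?_⟩
      · rw [T.src_rev, T.tgt_nxt, h4]
      · rw [T.tgt_rev, T.src_nxt']
    · rw [← hC.tgt]; exact h1
    · rw [← hd]
      exact white_walk hC hq.bi (by omega) (fun k a b => h2 k (by omega) b)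

/-- **White link.** -/
theorem white_link (hC : Contr T T3 π) (hq : T3.Mi σ q) {k1 : ℕ}
    (hd : (T3.st σ)^[k1] q = d) {w : V → Bool} {Z : Set V}
    (hA : ∀ v, v ∉ Z → (v ∈ Fre π T3 q ∨ Tch T (Fre π T3 q) v) → w v = σ (π v))
    (hdZ : T.tgt d ∉ Z) (hdF : T.tgt d ∈ Fre π T3 q ∨ Tch T (Fre π T3 q) (T.tgt d)) :
    (∃ p, π p = T3.tgt q ∧ p ∉ Z ∧ Tch T (Fre π T3 q) p ∧
      Joined T w (σ (T3.tgt q)) Set.univ p (T.tgt d)) ∨
    ∃ z ∈ Z, ∃ u, Nb T u z ∧
      Joined T (fun v => σ (π v)) (σ (T3.tgt q)) (Fre π T3 q) u (T.tgt d) := by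
  obtain ⟨t1, ht1, h1, h2⟩ := exists_contact (T := T) hC hq k1
  have hcol : σ (π (T.tgt d)) = σ (T3.tgt q) := by
    rw [← hC.tgt, ← hd]; exact T3.col_tgt_iter σ q k1
  rcases Nat.eq_or_lt_of_le ht1 with h3 | h3
  · left
    have h4 : π (T.tgt d) = T3.tgt q := by rw [← hC.tgt, ← hd, ← h3]; exact h1
    refine ⟨T.tgt d, h4, hdZ, ?_, ?_⟩
    · rcases hdF with h5 | h5
      · exact absurd h4 h5.2.1
      · exact h5
    · apply H838.Joined.refl (Set.mem_univ _)
      rw [hA _ hdZ hdF, hcol]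
  · have h4 := contact_step hC hq h3 h1 h2
    by_cases hZ : ∃ t, t1 ≤ t ∧ t ≤ k1 ∧
        (T.src ((T3.st σ)^[t] q) ∈ Z ∨ T.tgt ((T3.st σ)^[t] q) ∈ Z)
    · right
      obtain ⟨t, ht, ht', hz⟩ := hZ
      rcases Nat.eq_or_lt_of_le ht with h5 | h5
      · -- the contact itself
        have hw := white_walk (T := T) hC hq.bi (s := t1 + 1) (t := k1) (by omega)
          (fun k a b => h2 k (by omega) b)
        rw [hd] at hw
        rcases hz with hz | hz
        · refine ⟨_, hz, T.tgt ((T3.st σ)^[t1 + 1] q), ?_, hw⟩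
          rw [h4, ← h5]
          exact nb_apex (Or.inl rfl)
        · refine ⟨_, hz, T.tgt ((T3.st σ)^[t1 + 1] q), ?_, hw⟩
          rw [h4, ← h5]
          exact nb_apex (Or.inr (Or.inl rfl))
      · have hw := white_walk (T := T) hC hq.bi (s := t) (t := k1) ht'
          (fun k a b => h2 k (by omega) b)
        rw [hd] at hw
        rcases hz with hz | hz
        · exact ⟨_, hz, T.tgt ((T3.st σ)^[t] q), nb_tgt (Or.inl rfl), hw⟩
        · exact ⟨_, hz, T.tgt ((T3.st σ)^[t] q), Or.inl rfl, hw⟩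
    · left
      push Not at hZ
      have hfree : ∀ t, t1 < t → t ≤ k1 → T.tgt ((T3.st σ)^[t] q) ∈ Fre π T3 q := h2
      -- agreement from the contact to `d`
      have hag : AgreeTo T T3 w σ ((T3.st σ)^[t1] q) (k1 - t1) := by
        intro n hn
        rw [← iterate_add_apply]
        obtain ⟨z1, z2⟩ := hZ (n + t1) (by omega) (by omega)
        rcases Nat.eq_zero_or_pos n with h5 | h5
        · subst h5
          rw [Nat.zero_add] at z1 z2 ⊢
          have hap : T.apex ((T3.st σ)^[t1] q) ∈ Fre π T3 q := by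
            rw [← h4]; exact h2 (t1 + 1) (by omega) h3
          constructor
          · rw [hC.src]
            refine hA _ z1 (Or.inr ⟨T.rev (T.nxt (T.nxt ((T3.st σ)^[t1] q))), ?_, ?_⟩)
            · rw [T.src_rev, T.tgt_nxt2]
            · rw [T.tgt_rev, T.src_nxt2]; exact hap
          · rw [hC.tgt]
            refine hA _ z2 (Or.inr ⟨T.nxt ((T3.st σ)^[t1] q), T.src_nxt' _, ?_⟩)
            rw [T.tgt_nxt]; exact hap
        · have hf := hfree (n + t1) (by omega) (by omega)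
          constructor
          · rw [hC.src]
            exact hA _ z1 (Or.inr ⟨_, rfl, hf⟩)
          · rw [hC.tgt]
            exact hA _ z2 (Or.inl hf)
      have hb : T3.Bi σ ((T3.st σ)^[t1] q) := (T3.bi_iter t1).2 hq.bi
      have hj := hag.joined hC hb (n := k1 - t1) le_rfl
      rw [← iterate_add_apply, Nat.sub_add_cancel h3.le, hd] at hj
      have hp0 := hag 0 (Nat.zero_le _)
      rw [iterate_zero, id] at hp0
      rw [hp0.2, h1] at hj
      refine ⟨T.tgt ((T3.st σ)^[t1] q), by rw [← hC.tgt]; exact h1, (hZ t1 le_rfl h3.le).2, ?_, hj⟩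
      refine ⟨T.nxt ((T3.st σ)^[t1] q), T.src_nxt' _, ?_⟩
      rw [T.tgt_nxt, ← h4]
      exact h2 (t1 + 1) (by omega) h3

/-! ### agreement on the span -/

/-- The plane colouring agrees with the world on the span. -/
theorem Spn.agree {k1 kg : ℕ} (hC : Contr T T3 π) (h : Spn T3 σ q d g k1 kg) {w : V → Bool}
    {Z : Set V}
    (hA : ∀ v, v ∉ Z → (v ∈ Fre π T3 q ∨ Tch T (Fre π T3 q) v) → w v = σ (π v))
    (hZ : ∀ v ∈ Seen T T3 σ q k1 kg, v ∉ Z)
    (hcor : T.tgt d ∈ Fre π T3 q ∨ T.apex d ∈ Fre π T3 q) :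
    AgreeTo T T3 w σ d (kg - k1) := by
  intro n hn
  rw [← h.ed, ← iterate_add_apply]
  have z1 : T.src ((T3.st σ)^[n + k1] q) ∉ Z :=
    hZ _ ⟨n + k1, by omega, by have := h.le; omega, Or.inl rfl⟩
  have z2 : T.tgt ((T3.st σ)^[n + k1] q) ∉ Z :=
    hZ _ ⟨n + k1, by omega, by have := h.le; omega, Or.inr (Or.inl rfl)⟩
  rcases Nat.eq_zero_or_pos n with h5 | h5
  · subst h5
    rw [Nat.zero_add, h.ed] at z1 z2 ⊢
    have e1 : T.tgt d ∈ Fre π T3 q → Tch T (Fre π T3 q) (T.src d) := fun hf => ⟨d, rfl, hf⟩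
    have e2 : T.apex d ∈ Fre π T3 q → Tch T (Fre π T3 q) (T.src d) := fun hf =>
      ⟨T.rev (T.nxt (T.nxt d)), by rw [T.src_rev, T.tgt_nxt2], by
        rw [T.tgt_rev, T.src_nxt2]; exact hf⟩
    have e3 : T.apex d ∈ Fre π T3 q → Tch T (Fre π T3 q) (T.tgt d) := fun hf =>
      ⟨T.nxt d, T.src_nxt' d, by rw [T.tgt_nxt]; exact hf⟩
    rw [hC.src, hC.tgt]
    rcases hcor with hf | hf
    · exact ⟨hA _ z1 (Or.inr (e1 hf)), hA _ z2 (Or.inl hf)⟩
    · exact ⟨hA _ z1 (Or.inr (e2 hf)), hA _ z2 (Or.inr (e3 hf))⟩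
  · have hf := h.src_free hC (t := n + k1) (by omega) (by have := h.le; omega)
    rw [hC.src, hC.tgt]
    refine ⟨hA _ z1 (Or.inl hf), hA _ z2 (Or.inr ?_)⟩
    exact ⟨T.rev ((T3.st σ)^[n + k1] q), T.src_rev _, by rw [T.tgt_rev]; exact hf⟩

theorem Spn.coly {k1 kg : ℕ} (hC : Contr T T3 π) (h : Spn T3 σ q d g k1 kg) {w : V → Bool}
    {Z : Set V}
    (hA : ∀ v, v ∉ Z → (v ∈ Fre π T3 q ∨ Tch T (Fre π T3 q) v) → w v = σ (π v))
    (hZ : ∀ v ∈ Seen T T3 σ q k1 kg, v ∉ Z) (hga : T3.apex g = T3.src q)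
    (hcor : T.tgt g ∈ Fre π T3 q ∨ T.src g ∈ Fre π T3 q) :
    w (T.apex g) = σ (T3.src q) := by
  have z : T.apex g ∉ Z :=
    hZ _ ⟨kg, h.le, le_rfl, Or.inr (Or.inr (by rw [h.eg]))⟩
  rw [← hga, hC.apex]
  apply hA _ z
  right
  rcases hcor with hf | hf
  · exact ⟨T.rev (T.nxt g), by rw [T.src_rev, T.tgt_nxt], by rw [T.tgt_rev, T.src_nxt']; exact hf⟩
  · exact ⟨T.nxt (T.nxt g), T.src_nxt2 g, by rw [T.tgt_nxt2]; exact hf⟩

end Vale.Agent.P148.R2.H897
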