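import Vale.Agent.P148.R2.H251.W3g
import Vale.Agent.P148.R2.H897.CalLink

/-!
# Row CAL: the dichotomy

World with three frozen classes (`W3`), `q` a minority dart of the frozen face with `src q` in the
class `α`, `apex q` in `β`, `tgt q` in `γ`.  `τ` is a colouring of the plane which has the colours of
the world on the free vertices and on the main cycle, off a zone `Z`.  Then (`cal_dich`)

* either the class of `q` without `q`, closed by the darts of the main cycle between its ends, is a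
  class of the plane;
* or the strand sees a vertex of `Z'` between the first and the last member (and then free paths of
  the majority colour join it to both ends);
* or there is a free path of the minority colour from the zone `Z` to `tgt (f 1)`.
-/

namespace Vale.Agent.P148.R2.H897

open Function Vale.Agent.P148.R2.H258 Vale.Agent.P148.R2.H258.Tri Vale.Agent.P148.R2.H659
  Vale.Agent.P148.R2.H871 Vale.Agent.P148.R2.H953 Vale.Agent.P148.R2.H838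
  Vale.Agent.P148.R2.H251

variable {V V1 V3 D : Type*}
variable {T : Tri V D} {T3 : Tri V3 D} {π : V → V1} {O : V1} {w : V → Bool} {c : ℕ → D}
  {n s₁ s₂ : ℕ} {S : Fin 3 → Set V} {π3 : V → V3} {lab : Fin 3 → V3}

/-- What the strand of `d` sees up to time `N`. -/
def Sn (T : Tri V D) (T3 : Tri V3 D) (σ : V3 → Bool) (d : D) (N : ℕ) : Set V :=
  {v | ∃ k ≤ N, v = T.src ((T3.st σ)^[k] d) ∨ v = T.tgt ((T3.st σ)^[k] d) ∨
    v = T.apex ((T3.st σ)^[k] d)}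

/-- Black arms from `z` to both ends of the span. -/
def BArm (T : Tri V D) (F : Set V) (col : V → Bool) (b : Bool) (z : V) (d g : D) : Prop :=
  (∃ u, Nb T u z ∧ Joined T col b F u (T.apex d) ∧ Joined T col b F u (T.src g)) ∨
    (g = d ∧ (z = T.src d ∨ z = T.tgt d ∨ z = T.apex d))

variable (hW : W3 T T3 π O w c n s₁ s₂ S π3 lab)
include hW

theorem W3_fre_sub {q : D} (hq : T3.Good q) {α β γ : Fin 3} (ha : T.src q ∈ S α)
    (hb : T.apex q ∈ S β) (hc : T.tgt q ∈ S γ) : Fre π3 T3 q ⊆ {v | π v ≠ O} := by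
  intro v hv hO
  obtain ⟨j, hj⟩ := hW.exists_cls hO
  have h6 := (hW.mem _ _).2 hj
  rcases hW.third hq ha hb hc j with rfl | rfl | rfl
  · exact hv.1 (by rw [h6, hW.src3 ha])
  · exact hv.2.2 (by rw [h6, hW.apex3 hb])
  · exact hv.2.1 (by rw [h6, hW.tgt3 hc])

theorem W3_good_of_face {q : D} (hq : T3.InFace (c (s₁ - 1)) q) : T3.Good q := by
  have hgo := hW.good_o
  rcases hq with rfl | rfl | rfl
  · exact hgo
  · exact hgo.nxt
  · exact hgo.nxt.nxt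

/-- **Contact of the minority side with the third class**: the free minority path from the last
contact before `f 1`. -/
theorem contact3 [Finite D] {σ : V3 → Bool} {q : D} (hq : T3.InFace (c (s₁ - 1)) q) {α β γ : Fin 3}
    (ha : T.src q ∈ S α) (hb : T.apex q ∈ S β) (hc : T.tgt q ∈ S γ) {m : ℕ} {f : ℕ → D} {j₁ i₁ : ℕ}
    (hp : Path3 T T3 π O c n s₁ s₂ σ q α β m f j₁ i₁) :
    ∃ i < n, InArc s₁ s₂ n γ i ∧ (T.tgt (f 1) = T.src (c i) ∨
      ∃ k0 k1, k0 ≤ k1 ∧ (T3.st σ)^[k1] q = f 1 ∧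
        (∃ e, T.src e = T.src (c i) ∧ T.tgt e = T.tgt ((T3.st σ)^[k0] q)) ∧
        ∀ t, k0 ≤ t → t ≤ k1 → π (T.tgt ((T3.st σ)^[t] q)) ≠ O) := by
  have h2 := hp.two
  have hmq : T3.Mi σ q := by
    have := hp.mi3 0 (by omega)
    rwa [hp.zero] at this
  have hgq := W3_good_of_face hW hq
  obtain ⟨-, -, k1, hk1, e1, D1⟩ := (hp.rel (f 1)).2 ⟨1, by omega, rfl⟩
  obtain ⟨t1, ht1, b1, b2⟩ := exists_contact (T := T) hW.contr hmq k1
  have hfr := W3_fre_sub hW hgq ha hb hc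
  have hcl : T.tgt ((T3.st σ)^[t1] q) ∈ S γ := by
    rw [← hW.mem, ← hW.contr.tgt, b1, hW.tgt3 hc]
  rcases Nat.eq_or_lt_of_le ht1 with h3 | h3
  · obtain ⟨N, -, -, -, a4⟩ := hW.seen hq ha hb hc hp
    rcases a4 0 (Nat.zero_le _) with h5 | ⟨i, hi, h6, h7⟩
    · exfalso
      apply h5
      rw [h3, e1] at hcl
      exact hW.frozen hcl
    · exact ⟨i, hi, h6, Or.inl h7⟩
  · have h4 := contact_step hW.contr hmq h3 b1 b2
    have h5 : π (T.tgt ((T3.st σ)^[t1 + 1] q)) ≠ O := hfr (b2 (t1 + 1) (by omega) h3)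
    obtain ⟨i, hi, h6, h7⟩ := hW.contact (e := T.nxt ((T3.st σ)^[t1] q)) (j := γ)
      (by rw [T.src_nxt']; exact hcl) (by rw [T.tgt_nxt, ← h4]; exact h5)
    refine ⟨i, hi, h6, Or.inr ⟨t1 + 1, k1, h3, e1, ⟨_, h7, by rw [T.tgt_nxt, h4]⟩, ?_⟩⟩
    intro t c1 c2
    exact hfr (b2 t (by omega) c2)

/-- **Free minority path to the third class.** -/
theorem reach3 [Finite D] {σ : V3 → Bool} {q : D} (hq : T3.InFace (c (s₁ - 1)) q) {α β γ : Fin 3}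
    (ha : T.src q ∈ S α) (hb : T.apex q ∈ S β) (hc : T.tgt q ∈ S γ) {m : ℕ} {f : ℕ → D} {j₁ i₁ : ℕ}
    (hp : Path3 T T3 π O c n s₁ s₂ σ q α β m f j₁ i₁) :
    ∃ i < n, InArc s₁ s₂ n γ i ∧ (T.tgt (f 1) = T.src (c i) ∨
      ∃ u, (∃ e, T.src e = T.src (c i) ∧ T.tgt e = u) ∧
        Joined T (fun v => σ (π3 v)) (σ (lab γ)) {v | π v ≠ O} u (T.tgt (f 1))) := by
  have h2 := hp.two
  have hmq : T3.Mi σ q := by
    have := hp.mi3 0 (by omega)
    rwa [hp.zero] at this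
  obtain ⟨i, hi, h6, h7⟩ := contact3 hW hq ha hb hc hp
  refine ⟨i, hi, h6, ?_⟩
  rcases h7 with h7 | ⟨k0, k1, h8, h9, h10, h11⟩
  · exact Or.inl h7
  · right
    refine ⟨_, h10, ?_⟩
    have := white_walk (T := T) hW.contr hmq.bi (F := {v | π v ≠ O}) h8 h11
    rwa [h9, hW.tgt3 hc] at this

/-- **Link**, world form. A free minority path from the zone `Z`, or a free minority path off the
zone from a neighbour of a vertex of the third arc off the zone. -/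
theorem link3' [Finite D] {σ : V3 → Bool} {q : D} (hq : T3.InFace (c (s₁ - 1)) q) {α β γ : Fin 3}
    (ha : T.src q ∈ S α) (hb : T.apex q ∈ S β) (hc : T.tgt q ∈ S γ) {m : ℕ} {f : ℕ → D} {j₁ i₁ : ℕ}
    (hp : Path3 T T3 π O c n s₁ s₂ σ q α β m f j₁ i₁) (Z : Set V) :
    (∃ z ∈ Z, ((z = T.tgt (f 1) ∧ π z = O) ∨ ∃ u, Nb T u z ∧
      Joined T (fun v => σ (π3 v)) (σ (lab γ)) {v | π v ≠ O} u (T.tgt (f 1)))) ∨
    ∃ i < n, InArc s₁ s₂ n γ i ∧ T.src (c i) ∉ Z ∧ (T.tgt (f 1) = T.src (c i) ∨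
      ∃ u, (∃ e, T.src e = T.src (c i) ∧ T.tgt e = u) ∧
        Joined T (fun v => σ (π3 v)) (σ (lab γ)) {v | π v ≠ O ∧ v ∉ Z} u (T.tgt (f 1))) := by
  have h2 := hp.two
  have hmq : T3.Mi σ q := by
    have := hp.mi3 0 (by omega)
    rwa [hp.zero] at this
  obtain ⟨i, hi, h6, h7⟩ := contact3 hW hq ha hb hc hp
  rcases h7 with h7 | ⟨k0, k1, h8, h9, ⟨e, he1, he2⟩, h11⟩
  · by_cases hz : T.src (c i) ∈ Z
    · left
      refine ⟨_, hz, Or.inl ⟨h7.symm, ?_⟩⟩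
      exact hW.frozen (hW.arc _ _ h6)
    · right
      exact ⟨i, hi, h6, hz, Or.inl h7⟩
  · have hw : ∀ t, k0 ≤ t → t ≤ k1 → Joined T (fun v => σ (π3 v)) (σ (lab γ)) {v | π v ≠ O}
        (T.tgt ((T3.st σ)^[t] q)) (T.tgt (f 1)) := by
      intro t c1 c2
      have := white_walk (T := T) hW.contr hmq.bi (F := {v | π v ≠ O}) c2
        (fun k d1 d2 => h11 k (by omega) d2)
      rwa [h9, hW.tgt3 hc] at this
    by_cases hz : T.src (c i) ∈ Z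
    · left
      exact ⟨_, hz, Or.inr ⟨_, Or.inr ⟨T.rev e, by rw [T.src_rev, he2], by rw [T.tgt_rev, he1]⟩,
        hw k0 le_rfl h8⟩⟩
    · by_cases hz2 : ∃ t, k0 ≤ t ∧ t ≤ k1 ∧ T.tgt ((T3.st σ)^[t] q) ∈ Z
      · obtain ⟨t, c1, c2, c3⟩ := hz2
        exact Or.inl ⟨_, c3, Or.inr ⟨_, Or.inl rfl, hw t c1 c2⟩⟩
      · right
        push Not at hz2
        refine ⟨i, hi, h6, hz, Or.inr ⟨_, ⟨e, he1, he2⟩, ?_⟩⟩
        have h12 := white_walk (T := T) hW.contr hmq.bi (F := {v | π v ≠ O ∧ v ∉ Z}) h8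
          (fun k d1 d2 => ⟨h11 k d1 d2, hz2 k d1 d2⟩)
        rwa [h9, hW.tgt3 hc] at h12

omit hW in
/-- From the world to the plane. -/
theorem link_plane {σ : V3 → Bool} {γ : Fin 3} {f : ℕ → D} {Z : Set V} {τ : V → Bool}
    (hfr : ∀ v, v ∉ Z → π v ≠ O → τ v = σ (π3 v))
    (hγ : ∀ i, InArc s₁ s₂ n γ i → T.src (c i) ∉ Z → τ (T.src (c i)) = σ (lab γ)) {i : ℕ}
    (hi : InArc s₁ s₂ n γ i) (hz : T.src (c i) ∉ Z) (h : T.tgt (f 1) = T.src (c i) ∨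
      ∃ u, (∃ e, T.src e = T.src (c i) ∧ T.tgt e = u) ∧
        Joined T (fun v => σ (π3 v)) (σ (lab γ)) {v | π v ≠ O ∧ v ∉ Z} u (T.tgt (f 1))) :
    Joined T τ (σ (lab γ)) Set.univ (T.src (c i)) (T.tgt (f 1)) := by
  rcases h with h7 | ⟨u, ⟨e, he1, he2⟩, h12⟩
  · rw [h7]
    exact H838.Joined.refl (Set.mem_univ _) (hγ i hi hz)
  · have h13 := (h12.congr (σ' := τ) (fun v hv => hfr v hv.2 hv.1)).mono (Set.subset_univ _)
    exact H838.Joined.cons he1 he2 (Set.mem_univ _) (hγ i hi hz) h13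

/-- **Link.** A free minority path from the zone `Z`, or the minority vertex of `f 1` is joined in the
plane to a vertex of the third arc off the zone. -/
theorem link3 [Finite D] {σ : V3 → Bool} {q : D} (hq : T3.InFace (c (s₁ - 1)) q) {α β γ : Fin 3}
    (ha : T.src q ∈ S α) (hb : T.apex q ∈ S β) (hc : T.tgt q ∈ S γ) {m : ℕ} {f : ℕ → D} {j₁ i₁ : ℕ}
    (hp : Path3 T T3 π O c n s₁ s₂ σ q α β m f j₁ i₁) {Z : Set V} {τ : V → Bool}
    (hfr : ∀ v, v ∉ Z → π v ≠ O → τ v = σ (π3 v))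
    (hγ : ∀ i, InArc s₁ s₂ n γ i → T.src (c i) ∉ Z → τ (T.src (c i)) = σ (lab γ)) :
    (∃ z ∈ Z, ((z = T.tgt (f 1) ∧ π z = O) ∨ ∃ u, Nb T u z ∧
      Joined T (fun v => σ (π3 v)) (σ (lab γ)) {v | π v ≠ O} u (T.tgt (f 1)))) ∨
    ∃ i < n, InArc s₁ s₂ n γ i ∧ T.src (c i) ∉ Z ∧
      Joined T τ (σ (lab γ)) Set.univ (T.src (c i)) (T.tgt (f 1)) := by
  rcases link3' hW hq ha hb hc hp Z with h | ⟨i, hi, h6, hz, h7⟩
  · exact Or.inl h
  · exact Or.inr ⟨i, hi, h6, hz, link_plane hfr hγ h6 hz h7⟩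

/-- **Black arms** from a vertex seen between the first and the last member. -/
theorem black3 [Finite D] {σ : V3 → Bool} {q : D} {α β : Fin 3} {m : ℕ} {f : ℕ → D} {j₁ i₁ : ℕ}
    (hp : Path3 T T3 π O c n s₁ s₂ σ q α β m f j₁ i₁) {N : ℕ}
    (hN : (T3.st σ)^[N] (f 1) = f (m - 1))
    (hs : ∀ k, 0 < k → k ≤ N → π (T.src ((T3.st σ)^[k] (f 1))) ≠ O) {z : V}
    (hz : z ∈ Sn T T3 σ (f 1) N) :
    BArm T {v | π v ≠ O} (fun v => σ (π3 v)) (σ (T3.src q)) z (f 1) (f (m - 1)) := by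
  have h2 := hp.two
  have hm1 := hp.mi3 1 (by omega)
  have hc1 := T3.rel_col ((hp.rel (f 1)).2 ⟨1, by omega, rfl⟩)
  obtain ⟨k, hk, hz⟩ := hz
  rcases Nat.eq_zero_or_pos N with h0 | h0
  · right
    subst h0
    rw [iterate_zero, id] at hN
    have : k = 0 := by omega
    subst this
    exact ⟨hN.symm, hz⟩
  · left
    have hd1 : T.src ((T3.st σ)^[1] (f 1)) = T.apex (f 1) := by
      rw [iterate_one, src_step_mi hW.contr hm1]
    have hbw : ∀ a b, 1 ≤ a → a ≤ b → b ≤ N → Joined T (fun v => σ (π3 v)) (σ (T3.src q))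
        {v | π v ≠ O} (T.src ((T3.st σ)^[a] (f 1))) (T.src ((T3.st σ)^[b] (f 1))) := by
      intro a b c1 c2 c3
      have := black_walk (T := T) hW.contr hm1.bi (F := {v | π v ≠ O}) c2
        (fun i d1 d2 => hs i (by omega) (by omega))
      rwa [hc1.1] at this
    rcases Nat.eq_zero_or_pos k with h3 | h3
    · subst h3
      refine ⟨T.apex (f 1), nb_apex hz, ?_, ?_⟩
      · rw [← hd1]; exact hbw 1 1 le_rfl le_rfl h0
      · rw [← hd1, ← hN]; exact hbw 1 N le_rfl h0 le_rfl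
    · refine ⟨_, nb_src hz, ?_, ?_⟩
      · rw [← hd1]; exact (hbw 1 k le_rfl h3 hk).symm
      · rw [← hN]; exact hbw k N h3 hk le_rfl

/-- **The dichotomy**, with the link. -/
theorem cal_dich' [Fintype D] {σ : V3 → Bool} {q : D} (hq : T3.InFace (c (s₁ - 1)) q)
    (hm : T3.Mi σ q) {α β γ : Fin 3} (ha : T.src q ∈ S α) (hb : T.apex q ∈ S β)
    (hc : T.tgt q ∈ S γ) {Z Z' : Set V} (hZ : Z ⊆ Z') {τ : V → Bool}
    (hfr : ∀ v, v ∉ Z → π v ≠ O → τ v = σ (π3 v))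
    (harc : ∀ j i, InArc s₁ s₂ n j i → T.src (c i) ∉ Z → τ (T.src (c i)) = σ (lab j))
    (hch : ∀ i, InArc s₁ s₂ n γ i → T.src (c i) ∉ Z → ∀ j, InArc s₁ s₂ n α j →
      T.src (c j) ∉ Z' → ∀ l, InArc s₁ s₂ n β l → T.src (c l) ∉ Z' → ∀ k < gapL n j l,
      T.Mi τ (cy c n (j + k)) ∧
        Joined T τ (σ (lab γ)) Set.univ (T.src (c i)) (T.tgt (cy c n (j + k)))) :
    ∃ m f j₁ i₁ N, Path3 T T3 π O c n s₁ s₂ σ q α β m f j₁ i₁ ∧
      (T3.st σ)^[N] (f 1) = f (m - 1) ∧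
      (∀ i, 1 ≤ i → i < m → ∃ k ≤ N, (T3.st σ)^[k] (f 1) = f i) ∧
      (∃ i < n, InArc s₁ s₂ n γ i ∧ (T.tgt (f 1) = T.src (c i) ∨
        ∃ u, (∃ e, T.src e = T.src (c i) ∧ T.tgt e = u) ∧
          Joined T (fun v => σ (π3 v)) (σ (lab γ)) {v | π v ≠ O} u (T.tgt (f 1)))) ∧
      ((∃ z ∈ Z', z ∈ Sn T T3 σ (f 1) N ∧
          BArm T {v | π v ≠ O} (fun v => σ (π3 v)) (σ (T3.src q)) z (f 1) (f (m - 1))) ∨
        ((∀ z ∈ Sn T T3 σ (f 1) N, z ∉ Z') ∧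
          ((∃ z ∈ Z, ∃ u, Nb T u z ∧
            Joined T (fun v => σ (π3 v)) (σ (lab γ)) {v | π v ≠ O} u (T.tgt (f 1))) ∨
          (T.Mi τ (f 1) ∧ (∀ g, T.Rel τ (f 1) g ↔ (∃ i, 1 ≤ i ∧ i < m ∧ g = f i) ∨
              ∃ k < gapL n j₁ i₁, g = cy c n (j₁ + k)) ∧
            (∀ Θ : D → ℂ, T.cls τ (f 1) Θ = ∑ i ∈ Finset.Ico 1 m, Θ (f i) +
              ∑ k ∈ Finset.range (gapL n j₁ i₁), Θ (cy c n (j₁ + k))) ∧
            ∃ i < n, InArc s₁ s₂ n γ i ∧ T.src (c i) ∉ Z ∧ (T.tgt (f 1) = T.src (c i) ∨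
              ∃ u, (∃ e, T.src e = T.src (c i) ∧ T.tgt e = u) ∧
                Joined T (fun v => σ (π3 v)) (σ (lab γ)) {v | π v ≠ O ∧ v ∉ Z} u
                  (T.tgt (f 1))))))) := by
  obtain ⟨m, f, j₁, i₁, hp⟩ := hW.exists_path hq hm ha hb hc
  obtain ⟨N, a1, a2, a3, a4⟩ := hW.seen hq ha hb hc hp
  refine ⟨m, f, j₁, i₁, N, hp, a2, a1, reach3 hW hq ha hb hc hp, ?_⟩
  have h2 := hp.two
  have hgq := W3_good_of_face hW hq
  have hαβ : α ≠ β := by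
    rintro rfl
    exact hgq.2.2 (by rw [hW.apex3 hb, hW.src3 ha])
  by_cases hG1 : ∃ z ∈ Z', z ∈ Sn T T3 σ (f 1) N
  · obtain ⟨z, hz, hz'⟩ := hG1
    exact Or.inl ⟨z, hz, hz', black3 hW hp a2 a3 hz'⟩
  right
  push Not at hG1
  have hoff : ∀ z ∈ Sn T T3 σ (f 1) N, z ∉ Z' := fun z hz hz' => hG1 z hz' hz
  refine ⟨hoff, ?_⟩
  have hsrcN : ∀ k ≤ N, T.src ((T3.st σ)^[k] (f 1)) ∉ Z' := fun k hk =>
    hoff _ ⟨k, hk, Or.inl rfl⟩
  have htgtN : ∀ k ≤ N, T.tgt ((T3.st σ)^[k] (f 1)) ∉ Z' := fun k hk =>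
    hoff _ ⟨k, hk, Or.inr (Or.inl rfl)⟩
  have hsi : T.src (c i₁) ∉ Z' := by
    rw [← hp.start]
    exact hsrcN 0 (Nat.zero_le _)
  have hsj : T.src (c j₁) ∉ Z' := by
    rw [← hp.stop, ← a2]
    exact hoff _ ⟨N, le_rfl, Or.inr (Or.inr rfl)⟩
  rcases link3' hW hq ha hb hc hp Z with ⟨z, hz, hz'⟩ | ⟨i, hi, hiγ, hiZ, hlk⟩
  · rcases hz' with ⟨h3, h4⟩ | h3
    · exfalso
      rw [h3] at hz
      exact htgtN 0 (Nat.zero_le _) (hZ hz)
    · exact Or.inl ⟨z, hz, h3⟩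
  · right
    have hj := link_plane hfr (fun i => harc γ i) hiγ hiZ hlk
    have hag : ∀ k ≤ N, τ (T.src ((T3.st σ)^[k] (f 1))) = σ (T3.src ((T3.st σ)^[k] (f 1))) ∧
        τ (T.tgt ((T3.st σ)^[k] (f 1))) = σ (T3.tgt ((T3.st σ)^[k] (f 1))) := by
      intro k hk
      constructor
      · rcases Nat.eq_zero_or_pos k with h3 | h3
        · subst h3
          change τ (T.src (f 1)) = σ (T3.src (f 1))
          have h4 := hW.arc β i₁ hp.ai
          rw [← hp.start] at h4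
          rw [hp.start, harc β i₁ hp.ai (fun h => hsi (hZ h)), hW.src3 h4]
        · rw [hfr _ (fun h => hsrcN k hk (hZ h)) (a3 k h3 hk), ← hW.contr.src]
      · rcases a4 k hk with h3 | ⟨i', hi', h3, h4⟩
        · rw [hfr _ (fun h => htgtN k hk (hZ h)) h3, ← hW.contr.tgt]
        · have h5 := hW.arc γ i' h3
          rw [← h4] at h5
          have h6 : T.src (c i') ∉ Z := by
            rw [← h4]
            exact fun h => htgtN k hk (hZ h)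
          rw [h4, harc γ i' h3 h6, hW.tgt3 h5]
    have hy : τ (T.src (c j₁)) = σ (T3.src q) := by
      rw [harc α j₁ hp.aj (fun h => hsj (hZ h)), hW.src3 ha]
    have hcγ : τ (T.tgt (f 1)) = σ (lab γ) := hj.right.2
    have hne : σ (T3.src q) ≠ σ (lab γ) := by
      rw [← hW.tgt3 hc]; exact hm.1
    have hH : ∀ k < gapL n j₁ i₁, T.Mi τ (cy c n (j₁ + k)) ∧
        τ (T.src (cy c n (j₁ + k))) = σ (T3.src q) ∧
        ∃ l, T.Walk (T.tgt (f 1)) (T.tgt (cy c n (j₁ + k))) l ∧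
          ∀ e ∈ l, τ (T.src e) = τ (T.tgt (f 1)) ∧ τ (T.tgt e) = τ (T.tgt (f 1)) := by
      intro k hk
      obtain ⟨b1, b2⟩ := hch i hiγ hiZ j₁ hp.aj hsj i₁ hp.ai hsi k hk
      refine ⟨b1, ?_, ?_⟩
      · have h3 := b2.right.2
        have h4 := b1.1
        rw [h3] at h4
        revert h4 hne
        generalize τ (T.src (cy c n (j₁ + k))) = x
        generalize σ (T3.src q) = y
        generalize σ (lab γ) = z
        cases x <;> cases y <;> cases z <;> simp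
      · obtain ⟨-, -, l, h3, h4⟩ := hj.symm.trans b2
        refine ⟨l, h3, fun e he => ?_⟩
        rw [hcγ]
        exact ⟨(h4 e he).1.1, (h4 e he).2.1⟩
    have h8 := fun Θ => hW.close3 hαβ hp a1 hag hy hH Θ
    exact ⟨(h8 0).1, (h8 0).2.1, fun Θ => (h8 Θ).2.2, i, hi, hiγ, hiZ, hlk⟩

/-- **The dichotomy.** -/
theorem cal_dich [Fintype D] {σ : V3 → Bool} {q : D} (hq : T3.InFace (c (s₁ - 1)) q)
    (hm : T3.Mi σ q) {α β γ : Fin 3} (ha : T.src q ∈ S α) (hb : T.apex q ∈ S β)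
    (hc : T.tgt q ∈ S γ) {Z Z' : Set V} (hZ : Z ⊆ Z') {τ : V → Bool}
    (hfr : ∀ v, v ∉ Z → π v ≠ O → τ v = σ (π3 v))
    (harc : ∀ j i, InArc s₁ s₂ n j i → T.src (c i) ∉ Z → τ (T.src (c i)) = σ (lab j))
    (hch : ∀ i, InArc s₁ s₂ n γ i → T.src (c i) ∉ Z → ∀ j, InArc s₁ s₂ n α j →
      T.src (c j) ∉ Z' → ∀ l, InArc s₁ s₂ n β l → T.src (c l) ∉ Z' → ∀ k < gapL n j l,
      T.Mi τ (cy c n (j + k)) ∧
        Joined T τ (σ (lab γ)) Set.univ (T.src (c i)) (T.tgt (cy c n (j + k)))) :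
    ∃ m f j₁ i₁ N, Path3 T T3 π O c n s₁ s₂ σ q α β m f j₁ i₁ ∧
      (T3.st σ)^[N] (f 1) = f (m - 1) ∧
      (∀ i, 1 ≤ i → i < m → ∃ k ≤ N, (T3.st σ)^[k] (f 1) = f i) ∧
      (∃ i < n, InArc s₁ s₂ n γ i ∧ (T.tgt (f 1) = T.src (c i) ∨
        ∃ u, (∃ e, T.src e = T.src (c i) ∧ T.tgt e = u) ∧
          Joined T (fun v => σ (π3 v)) (σ (lab γ)) {v | π v ≠ O} u (T.tgt (f 1)))) ∧
      ((∃ z ∈ Z', z ∈ Sn T T3 σ (f 1) N ∧
          BArm T {v | π v ≠ O} (fun v => σ (π3 v)) (σ (T3.src q)) z (f 1) (f (m - 1))) ∨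
        ((∀ z ∈ Sn T T3 σ (f 1) N, z ∉ Z') ∧
          ((∃ z ∈ Z, ∃ u, Nb T u z ∧
            Joined T (fun v => σ (π3 v)) (σ (lab γ)) {v | π v ≠ O} u (T.tgt (f 1))) ∨
          (T.Mi τ (f 1) ∧ (∀ g, T.Rel τ (f 1) g ↔ (∃ i, 1 ≤ i ∧ i < m ∧ g = f i) ∨
              ∃ k < gapL n j₁ i₁, g = cy c n (j₁ + k)) ∧
            ∀ Θ : D → ℂ, T.cls τ (f 1) Θ = ∑ i ∈ Finset.Ico 1 m, Θ (f i) +
              ∑ k ∈ Finset.range (gapL n j₁ i₁), Θ (cy c n (j₁ + k)))))) := by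
  obtain ⟨m, f, j₁, i₁, N, h1, h2, h3, h4, h5⟩ := cal_dich' hW hq hm ha hb hc hZ hfr harc hch
  refine ⟨m, f, j₁, i₁, N, h1, h2, h3, h4, ?_⟩
  rcases h5 with h5 | ⟨h5, h6 | ⟨h6, h7, h8, -⟩⟩
  · exact Or.inl h5
  · exact Or.inr ⟨h5, Or.inl h6⟩
  · exact Or.inr ⟨h5, Or.inr ⟨h6, h7, h8⟩⟩

end Vale.Agent.P148.R2.H897
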