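import Vale.Agent.P148.R2.H897.Cal8w
import Vale.Agent.P148.R2.H953.Cal8c

/-!
# Row CAL: the inequality of one world of the scene, in the form `OneIn`

`oneIn_scene` : helper953's `OneIn` in a world of positive weight, from the three inputs `hA` (arms),
`hU` (plane classes), `hV` (chain of the main cycle).
-/

set_option linter.unusedSectionVars false

open Set Function Relation Metric
open scoped Classical ENNReal
open Vale.Agent.P148.R2.H258 Vale.Agent.P148.R2.H258.Tri Vale.Agent.P148.R2.H659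
  Vale.Agent.P148.R2.H871 Vale.Agent.P148.R2.H592
  Vale.Agent.P148.R2.H184 Vale.Agent.P148.R2.H203 Vale.Agent.P148.R2.H910
  Vale.Agent.P148.R2.H251 Vale.Agent.P148.R2.H838 Vale.Agent.P148.R2.H953
open _root_.P148 _root_.P148.H729

namespace Vale.Agent.P148.R2.H897

open Vale.Agent.P148.R2.N (ms nc ms_pos)
open Vale.Agent.P148.R2.H566 (W0)
open Vale.Agent.P148.R2.H598 (dv)
open Vale.Agent.P148.R2.H609 (TP piX)
open Vale.Agent.P148.R2.H172 (Frame GoodT fscOf mc)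
open Vale.Agent.P148.R2.H959 (Mrk ag bg mk0 mk1 mk2 CalB)
open Vale.Agent.P148.R2.H678 (cw wd)
open Vale.Agent.P148.R2.H995 (nsup Zn calT)
open Vale.Agent.P148.R2.H291 (site bR SiteOK GEnv CT InEnv)
open Vale.Agent.P148.R2.H530 (ArmLe hbad_sc)

/-- **The inequality of one world**, raw form. -/
theorem one_core {M : ℕ} {T : Set Pt} {w : W0} [Fintype w.X] {x₀ : w.X} {col : w.X → Bool}
    (hS : SiteOK T 9 (ms M / 1000)) (hX : w.X = site T 9) (hM : 120 ≤ M)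
    (hin : InEnv w (pts T) 3 (ms M / 1000))
    {F : Frame M w x₀ col} {s₁ s₂ : ℕ} {O3 : Fin 3 → Set ℂ} {h3 : Three3 w.X w.B O3}
    (hB : CalB F 5 s₁ s₂ O3 h3)
    {κt : ℂ} {κ : ℝ} {Θ : Dt → ℂ} (hΘ : Wt κt κ Θ) (him : 0 < κt.im) {I : Finset (ℂ × ℝ)}
    (hG : GEnv κ Θ 3 (ms M / 1000) I T) {r : ℝ} (hr1 : r ≤ 1) (hr : 30 * ms M ≤ r)
    (harm : ArmLe T (2 * r) (1 / 2) (1 / 2)) {z : ℂ} {t t' t'' D0 : ℝ} (hD0 : 7 ≤ D0)
    {Z Z' : Fin 3 → Set w.X} {nr : w.X → w.X → Prop} {τ : Fin 3 → (w.X → Bool) → w.X → Bool}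
    (hD : ∀ γ s, Dich (TP w x₀) (TC w.hull h3) (piX w) w.O (F.bc (mk0 M 5)) (F.bn (mk0 M 5)) s₁ s₂
      (pi3 w.X O3) Sum.inl (patt w.X O3 γ s) (qd (TC w.hull h3) (F.bc (mk0 M 5) (s₁ - 1)) γ)
      (γ + 1) (γ + 2) γ (Z γ) (Z' γ) (τ γ s))
    (hA : ∀ γ, H953.pr (AltW w.hull x₀ h3 (F.bc (mk0 M 5)) (F.bn (mk0 M 5)) s₁ s₂ γ (Z γ) (Z' γ)
      nr) ≤ t'')
    (hU : ∀ (γ : Fin 3) (f₁ : (w.X → Bool) → w.D),
      (∀ s, ¬ AltW w.hull x₀ h3 (F.bc (mk0 M 5)) (F.bn (mk0 M 5)) s₁ s₂ γ (Z γ) (Z' γ) nr s →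
        ∃ m f j₁ i₁ N, CloW w.hull x₀ h3 (F.bc (mk0 M 5)) (F.bn (mk0 M 5)) s₁ s₂ γ (Z γ) (Z' γ) nr
          (τ γ) s m f j₁ i₁ N ∧ f 1 = f₁ s) →
      (H953.ex fun s => if AltW w.hull x₀ h3 (F.bc (mk0 M 5)) (F.bn (mk0 M 5)) s₁ s₂ γ (Z γ) (Z' γ)
        nr s then 0 else ‖(TP w x₀).cls (τ γ s) (f₁ s) (thP w.hull x₀ Θ)‖ ^ 2) ≤ t)
    (hV : ∀ (γ : Fin 3) (J K : (w.X → Bool) → ℕ) (Gd : (w.X → Bool) → Prop),
      (∀ s, Gd s → ∃ m f N, CloW w.hull x₀ h3 (F.bc (mk0 M 5)) (F.bn (mk0 M 5)) s₁ s₂ γ (Z γ)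
        (Z' γ) nr (τ γ) s m f (J s) (K s) N) →
      (H953.ex fun s => if Gd s then ‖∑ k ∈ Finset.range (gapL (F.bn (mk0 M 5)) (J s) (K s)),
        thP w.hull x₀ Θ (cy (F.bc (mk0 M 5)) (F.bn (mk0 M 5)) (J s + k)) +
        z * (((((TP w x₀).src (F.bc (mk0 M 5) (J s))).1 + (1 + Complex.I)) : ℂ) -
          (((TP w x₀).src (F.bc (mk0 M 5) (K s))).1 + (1 + Complex.I)))‖ ^ 2 else 0) ≤ t') :
    ‖z‖ * (r / 4 - 10 * (6 * ms M)) ≤ 3 * (Real.sqrt t + Real.sqrt t' +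
      Real.sqrt t'' * Real.sqrt (2 * CT κ (2 * 3) + 2 * (‖z‖ ^ 2 * D0 ^ 2))) := by
  have hM0 : 0 < M := by omega
  have h0 := ms_pos hM0
  have h1 : ms M ≤ 1 := N.ms_le_one
  have hr0 : 0 ≤ r := by linarith
  let := Fintype.ofFinite (CV w.X O3)
  have hbad := hbad_sc hS hM hX (x₀ := x₀) hB.w3 hB.arcPos (r := r) (ω := 1 / 2) hr1
    (by linarith) harm
  have hE := th3_energy hG hin (by linarith) hB.w3
  have key := one_world (h := w.hull) (x₀ := x₀) hB.w3 (W := 2) (δ := ((5 : ℕ) + 1) * ms M)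
    (pos := fun v => v.1 + (1 + Complex.I)) (by positivity) (by norm_num) hB.arcPos hΘ.tau him
    hr0 hbad hΘ.rot (z := z) hD (D0 := D0) (fun i hi j hj => (hB.pos_le i hi j hj).trans hD0)
    hE hA hU hV
  have e5 : ((5 : ℕ) + 1 : ℝ) * ms M = 6 * ms M := by push_cast; ring
  rwa [e5] at key

section scene

variable {c : ℝ} {M : ℕ} {T : Set Pt} (h : GoodT c M T) (hM : 0 < M)
  {i : (site T 9 → Bool) × (site T 9 → Bool)} (hi : (fscOf hM h.site.hull).p i ≠ 0)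
include hi

/-- **The inequality of one world of the scene**, in the form `OneIn` of helper953. -/
theorem oneIn_scene [Fintype (site T 9)] (hM' : 120 ≤ M)
    {F : Frame M ((fscOf hM h.site.hull).w i) ((fscOf hM h.site.hull).x₀ i)
      ((fscOf hM h.site.hull).col i)} {s₁ s₂ : ℕ} {O3 : Fin 3 → Set ℂ}
    {h3 : Three3 ((fscOf hM h.site.hull).w i).X ((fscOf hM h.site.hull).w i).B O3}
    (hB : CalB F 5 s₁ s₂ O3 h3)
    {κt : ℂ} {κ : ℝ} {Θ : Dt → ℂ} (hΘ : Wt κt κ Θ) (him : 0 < κt.im) {I : Finset (ℂ × ℝ)}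
    (hG : GEnv κ Θ 3 (ms M / 1000) I T) {r : ℝ} (hr1 : r ≤ 1) (hr : 30 * ms M ≤ r)
    (harm : ArmLe T (2 * r) (1 / 2) (1 / 2)) {ρ : ℝ} (hρ : 12 * ms M ≤ ρ)
    {D0 C om : ℝ} (hD0 : 7 ≤ D0) {v : ℕ → ℂ} {mq : Fin 3 → ℝ≥0∞} {wn : ℝ≥0∞}
    {nr : site T 9 → site T 9 → Prop}
    (hA : ∀ γ, H953.pr (V := site T 9)
      (AltW ((fscOf hM h.site.hull).w i).hull ((fscOf hM h.site.hull).x₀ i) h3
      (F.bc (mk0 M 5)) (F.bn (mk0 M 5)) s₁ s₂ γ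
      (Zn M (site T 9) (agc M γ) (bgc M γ) (12 * ms M)) (Zn M (site T 9) (agc M γ) (bgc M γ) ρ)
      nr) ≤ 12 * om)
    (hU : ∀ (γ : Fin 3) (t : ℝ), 0 ≤ t → mq γ ≤ ENNReal.ofReal t →
      ∀ f₁ : (site T 9 → Bool) → ((fscOf hM h.site.hull).w i).D,
      (∀ s : site T 9 → Bool, ¬ AltW ((fscOf hM h.site.hull).w i).hull
        ((fscOf hM h.site.hull).x₀ i) h3
        (F.bc (mk0 M 5)) (F.bn (mk0 M 5)) s₁ s₂ γ
        (Zn M (site T 9) (agc M γ) (bgc M γ) (12 * ms M))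
        (Zn M (site T 9) (agc M γ) (bgc M γ) ρ) nr s →
        ∃ m f j₁ i₁ N, CloW ((fscOf hM h.site.hull).w i).hull ((fscOf hM h.site.hull).x₀ i) h3
          (F.bc (mk0 M 5)) (F.bn (mk0 M 5)) s₁ s₂ γ
          (Zn M (site T 9) (agc M γ) (bgc M γ) (12 * ms M))
          (Zn M (site T 9) (agc M γ) (bgc M γ) ρ) nr
          (calT M (site T 9) (agc M γ) (bgc M γ) i.1 i.2) s m f j₁ i₁ N ∧ f 1 = f₁ s) →
      (H953.ex (V := site T 9) fun s => if AltW ((fscOf hM h.site.hull).w i).hull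
        ((fscOf hM h.site.hull).x₀ i) h3
        (F.bc (mk0 M 5)) (F.bn (mk0 M 5)) s₁ s₂ γ
        (Zn M (site T 9) (agc M γ) (bgc M γ) (12 * ms M))
        (Zn M (site T 9) (agc M γ) (bgc M γ) ρ) nr s then 0 else
        ‖(TP ((fscOf hM h.site.hull).w i) ((fscOf hM h.site.hull).x₀ i)).cls
          (calT M (site T 9) (agc M γ) (bgc M γ) i.1 i.2 s) (f₁ s)
          (thP ((fscOf hM h.site.hull).w i).hull ((fscOf hM h.site.hull).x₀ i) Θ)‖ ^ 2) ≤ t)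
    (hV : ∀ (z : ℂ) (D Wn : ℝ), 0 ≤ D → 0 ≤ Wn → dv M z v ≤ ENNReal.ofReal D →
      wn ≤ ENNReal.ofReal Wn →
      ∀ (γ : Fin 3) (J K : (site T 9 → Bool) → ℕ) (Gd : (site T 9 → Bool) → Prop),
      (∀ s, Gd s → ∃ m f N, CloW ((fscOf hM h.site.hull).w i).hull
          ((fscOf hM h.site.hull).x₀ i) h3
          (F.bc (mk0 M 5)) (F.bn (mk0 M 5)) s₁ s₂ γ
          (Zn M (site T 9) (agc M γ) (bgc M γ) (12 * ms M))
          (Zn M (site T 9) (agc M γ) (bgc M γ) ρ) nr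
          (calT M (site T 9) (agc M γ) (bgc M γ) i.1 i.2) s m f (J s) (K s) N) →
      (H953.ex (V := site T 9) fun s => if Gd s then
        ‖∑ k ∈ Finset.range (gapL (F.bn (mk0 M 5)) (J s) (K s)),
        thP ((fscOf hM h.site.hull).w i).hull ((fscOf hM h.site.hull).x₀ i) Θ
          (cy (F.bc (mk0 M 5)) (F.bn (mk0 M 5)) (J s + k)) +
        z * (((((TP ((fscOf hM h.site.hull).w i) ((fscOf hM h.site.hull).x₀ i)).src
            (F.bc (mk0 M 5) (J s))).1 + (1 + Complex.I)) : ℂ) -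
          (((TP ((fscOf hM h.site.hull).w i) ((fscOf hM h.site.hull).x₀ i)).src
            (F.bc (mk0 M 5) (K s))).1 + (1 + Complex.I)))‖ ^ 2 else 0) ≤
        4 * D + 4 * Wn + 4 * (‖z‖ ^ 2 * (C * ms M) ^ 2)) :
    OneIn M v r (CT κ (2 * 3)) D0 C om mq wn := by
  intro z e he h1 h2 h4
  have h0 := ms_pos hM
  let inst : Fintype ((fscOf hM h.site.hull).w i).X := ‹Fintype (site T 9)›
  have e2 : (0 : ℝ) ≤ e ^ 2 := by positivity
  exact one_core (w := (fscOf hM h.site.hull).w i) (x₀ := (fscOf hM h.site.hull).x₀ i) h.site rfl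
    hM' (h.inEnv hM hi) hB hΘ him hG hr1 hr harm hD0
    (fun γ s => scene_dich h hM hi hB (by omega) (r := 12 * ms M) (by linarith) γ
      (Zn_mono hρ) s) hA (fun γ => hU γ (e ^ 2) e2 (h1 γ))
    (fun γ J K Gd hGd => (hV z (e ^ 2) (e ^ 2) e2 e2 h4 h2 γ J K Gd hGd).trans
      (le_of_eq (by ring)))

end scene

end Vale.Agent.P148.R2.H897
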