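import Vale.Agent.P148.R2.H897.CalV4
import Vale.Agent.P148.R2.H409.Hv
import Vale.Agent.P148.R2.H409.HvV
import Vale.Agent.P148.R2.H659.RowVal

/-!
# Row CAL: the chain of the main cycle in one world of the scene

`hV_scene` : hypothesis `hV` of `oneIn_scene`, for the values of the cells of the scene.
-/

set_option linter.unusedSectionVars false

open Set Function Relation Metric
open scoped Classical ENNReal
open Vale.Agent.P148.R2.H258 Vale.Agent.P148.R2.H258.Tri Vale.Agent.P148.R2.H659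
  Vale.Agent.P148.R2.H871 Vale.Agent.P148.R2.H592
  Vale.Agent.P148.R2.H184 Vale.Agent.P148.R2.H203 Vale.Agent.P148.R2.H910
  Vale.Agent.P148.R2.H251 Vale.Agent.P148.R2.H838 Vale.Agent.P148.R2.H953
open _root_.P148 _root_.P148.H729

namespace Vale.Agent.P148.R2.H897

open Vale.Agent.P148.R2.N (ms nc ms_pos)
open Vale.Agent.P148.R2.H566 (W0 Ev EvMean)
open Vale.Agent.P148.R2.H598 (dv)
open Vale.Agent.P148.R2.H609 (TP piX)
open Vale.Agent.P148.R2.H172 (Frame GoodT FScene fsc fsc_eq fscOf mc)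
open Vale.Agent.P148.R2.H959 (Mrk ag bg mk0 mk1 mk2 CalB)
open Vale.Agent.P148.R2.H678 (wd)
open Vale.Agent.P148.R2.H995 (nsup Zn calT)
open Vale.Agent.P148.R2.H291 (site bR SiteOK GEnv CT InEnv)
open Vale.Agent.P148.R2.H488 (hc)
open Vale.Agent.P148.R2.H112 (ThkE)
open Vale.Agent.P148.R2.H409 (hV_frame hv_val)

/-- The values of the cells of a world of a scene. -/
theorem cv_cval {M : ℕ} (S : FScene M) (Θ : Dt → ℂ) (i : S.ι) :
    (fun k => S.cv Θ i k) = cval M (S.w i) (S.col i) Θ := by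
  funext k
  exact S.cv_eq Θ i k

section scene

variable {c : ℝ} {M : ℕ} {T : Set Pt} (h : GoodT c M T) (hM : 0 < M)
  {i : (site T 9 → Bool) × (site T 9 → Bool)} (hi : (fscOf hM h.site.hull).p i ≠ 0)
include hi

/-- The colour of the strand of a frame of the scene. -/
theorem frame_blk (F : Frame M ((fscOf hM h.site.hull).w i) ((fscOf hM h.site.hull).x₀ i)
      ((fscOf hM h.site.hull).col i)) : (fscOf hM h.site.hull).col i
      ((TP ((fscOf hM h.site.hull).w i) ((fscOf hM h.site.hull).x₀ i)).src F.o) = true := by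
  have h1 := (H419.frame_col (w := (fscOf hM h.site.hull).w i) (h.colD hM hi)
    (H678.cs_val _) F 0).1
  rw [iterate_zero, id] at h1
  rw [← h1]
  exact (H678.cs_val (mc M (site T 9) i) _).symm

/-- **Hypothesis `hV` of `oneIn_scene`.** -/
theorem hV_scene [Fintype (site T 9)] (hM' : 120 ≤ M)
    {F : Frame M ((fscOf hM h.site.hull).w i) ((fscOf hM h.site.hull).x₀ i)
      ((fscOf hM h.site.hull).col i)} (hF : F.Can) {s₁ s₂ : ℕ} {O3 : Fin 3 → Set ℂ}
    {h3 : Three3 ((fscOf hM h.site.hull).w i).X ((fscOf hM h.site.hull).w i).B O3}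
    (hB : CalB F 5 s₁ s₂ O3 h3)
    {κt : ℂ} {κ : ℝ} {Θ : Dt → ℂ} (hΘ : Wt κt κ Θ) (hE : ThkE T M Θ (CT κ 2 * ms M ^ 2))
    {C ρ : ℝ} (hC : 24 ≤ C) (hρ : 12 * ms M ≤ ρ) {nr : site T 9 → site T 9 → Prop} :
    ∀ (z : ℂ) (D Wn : ℝ), 0 ≤ D → 0 ≤ Wn →
      dv M z (fun k => (fscOf hM h.site.hull).cv Θ i k) ≤ ENNReal.ofReal D →
      wnV (fscOf hM h.site.hull) κ Θ i ≤ ENNReal.ofReal Wn →
      ∀ (γ : Fin 3) (J K : (site T 9 → Bool) → ℕ) (Gd : (site T 9 → Bool) → Prop),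
      (∀ s, Gd s → ∃ m f N, CloW ((fscOf hM h.site.hull).w i).hull
          ((fscOf hM h.site.hull).x₀ i) h3
          (F.bc (mk0 M 5)) (F.bn (mk0 M 5)) s₁ s₂ γ
          (Zn M (site T 9) (agc M γ) (bgc M γ) (12 * ms M))
          (Zn M (site T 9) (agc M γ) (bgc M γ) ρ) nr
          (calT M (site T 9) (agc M γ) (bgc M γ) i.1 i.2) s m f (J s) (K s) N) →
      (H953.ex (V := site T 9) fun s => if Gd s then
        ‖∑ k ∈ Finset.range (gapL (F.bn (mk0 M 5)) (J s) (K s)),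
        thP ((fscOf hM h.site.hull).w i).hull ((fscOf hM h.site.hull).x₀ i) Θ
          (cy (F.bc (mk0 M 5)) (F.bn (mk0 M 5)) (J s + k)) +
        z * (((((TP ((fscOf hM h.site.hull).w i) ((fscOf hM h.site.hull).x₀ i)).src
            (F.bc (mk0 M 5) (J s))).1 + (1 + Complex.I)) : ℂ) -
          (((TP ((fscOf hM h.site.hull).w i) ((fscOf hM h.site.hull).x₀ i)).src
            (F.bc (mk0 M 5) (K s))).1 + (1 + Complex.I)))‖ ^ 2 else 0) ≤
        4 * D + 4 * Wn + 4 * (‖z‖ ^ 2 * (C * ms M) ^ 2) := by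
  intro z D Wn hD hWn hdv hwn γ J K Gd hGd
  have h0 := ms_pos hM
  have hgap := mk_gap (M := M) (by omega) γ
  let inst : Fintype ((fscOf hM h.site.hull).w i).X := ‹Fintype (site T 9)›
  let := Fintype.ofFinite (CV ((fscOf hM h.site.hull).w i).X O3)
  have hCT : 0 ≤ CT κ 2 := H729.CT_nonneg _ _
  replace hdv := (congrArg (dv M z) (cv_cval (fscOf hM h.site.hull) Θ i)).symm.le.trans hdv
  have hcc : ∀ k, ∀ q : ((fscOf hM h.site.hull).w i).D, tail q ∈ H959.reg M k →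
      cr (dt q).1 (dt q).2.1 (dt q).2.2 ≠ 0 ∧ cc (dt q) ∈ N.csq (tail q) (ms M / 16) :=
    fun k q hq => site_cc h.site hM k q hq
  have hID : CellID F Θ := cellID h.site (by omega) hM hi F hF
  have key := hV_frame (w := (fscOf hM h.site.hull).w i) (x₀ := (fscOf hM h.site.hull).x₀ i)
    (F := F) (g₀ := mk0 M 5) (g₁ := mk1 M 5) (g₂ := mk2 M 5) hM hF hB.mrk
    (by unfold mk0 mk1; omega) (by unfold mk1 mk2; omega) (by unfold mk0 mk2 nc; omega)
    (frame_blk h hM hi F) hB.w3 hcc hΘ.tau hΘ.rot (E := CT κ 2 * ms M ^ 2)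
    (fun k => hE _ rfl rfl _ k) (z := z) (D := D) (γ := γ) hgap
    (fun iy ix h1 h2 h3 h4 => hv_val F hM hcc hID (by omega) (by omega) h1 h2 h3 h4 hD hdv) hD
    (Z := Zn M (site T 9) (agc M γ) (bgc M γ) (12 * ms M))
    (Z' := Zn M (site T 9) (agc M γ) (bgc M γ) ρ) subset_rfl (Zn_mono hρ) J K Gd hGd
    (pos := fun v => v.1 + (1 + Complex.I)) (fun u v => by ring)
  refine key.trans ?_
  have h5 : 6 * wnr ((fscOf hM h.site.hull).w i).hull ((fscOf hM h.site.hull).x₀ i) M Θ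
      (mk0 M 5) (mk1 M 5) (mk2 M 5) ((fscOf hM h.site.hull).col i) +
      6 * (nc M * (CT κ 2 * ms M ^ 2)) ≤ Wn := by
    unfold wnV at hwn
    have e := wnF_eq (S := fscOf hM h.site.hull) (Θ := Θ) (g₀ := mk0 M 5) (g₁ := mk1 M 5)
      (g₂ := mk2 M 5) (i := i)
    rw [show wnF (fscOf hM h.site.hull) Θ (mk0 M 5) (mk1 M 5) (mk2 M 5) i = _ from e] at hwn
    have e2 : (6 : ℝ≥0∞) = ENNReal.ofReal 6 := by simp
    rw [e2, ← ENNReal.ofReal_mul (by norm_num), ← ENNReal.ofReal_add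
      (mul_nonneg (by norm_num) (wnr_nonneg _ _ _ _ _ _ _ _)) (by positivity)] at hwn
    exact (ENNReal.ofReal_le_ofReal_iff hWn).1 hwn
  have h6 : (24 * ms M) ^ 2 ≤ (C * ms M) ^ 2 := by gcongr
  have h7 : ‖z‖ ^ 2 * (24 * ms M) ^ 2 ≤ ‖z‖ ^ 2 * (C * ms M) ^ 2 := by gcongr
  linarith

end scene

end Vale.Agent.P148.R2.H897
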