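import Mathlib

/-!
# P148, row PLANE: blockwise flips of a sequential exploration preserve the fair law

`blk u v` is the block which explores the vertex `v` when the colouring is `u` (blocks are explored in
the order `0, 1, 2, …`; the unexplored vertices get a last label). The only hypothesis is that the
vertices explored by the blocks `0, …, t` are determined by their own colours. Then flipping all
the vertices of the blocks `t` with `s t = true`, for a deterministic sign function `s`, is a bijection
of the colourings.
-/

namespace Vale.Agent.P148.R2.H897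

variable {V : Type*}

/-- The set explored by the blocks `≤ t` is a stopping set, for every `t`. -/
def Adapted (blk : (V → Bool) → V → ℕ) : Prop :=
  ∀ (t : ℕ) (u u' : V → Bool), (∀ v, blk u v ≤ t → u' v = u v) →
    ∀ v, blk u' v ≤ t ↔ blk u v ≤ t

/-- Blockwise flip with deterministic signs. -/
def flipB (blk : (V → Bool) → V → ℕ) (s : ℕ → Bool) (u : V → Bool) (v : V) : Bool :=
  xor (s (blk u v)) (u v)

theorem flipB_false {blk : (V → Bool) → V → ℕ} {s : ℕ → Bool} {u : V → Bool} {v : V}
    (h : s (blk u v) = false) : flipB blk s u v = u v := by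
  unfold flipB; rw [h]; simp

theorem flipB_true {blk : (V → Bool) → V → ℕ} {s : ℕ → Bool} {u : V → Bool} {v : V}
    (h : s (blk u v) = true) : flipB blk s u v = !u v := by
  unfold flipB; rw [h]; simp

/-- In an adapted exploration the labels `≤ t` are the same as soon as the colours agree there. -/
theorem Adapted.blk_eq {blk : (V → Bool) → V → ℕ} (h : Adapted blk) {u u' : V → Bool} {t : ℕ}
    (he : ∀ v, blk u v ≤ t → u' v = u v) {v : V} (hv : blk u v ≤ t) : blk u' v = blk u v := by
  have h1 : blk u' v ≤ blk u v := by
    rw [h (blk u v) u u' (fun w hw => he w (hw.trans hv)) v]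
  refine le_antisymm h1 ?_
  by_contra hc
  push Not at hc
  obtain ⟨k, hk⟩ : ∃ k, blk u v = k + 1 := ⟨blk u v - 1, by omega⟩
  have h2 := h k u u' (fun w hw => he w (by omega)) v
  have : blk u v ≤ k := h2.1 (by omega)
  omega

theorem flipB_injective {blk : (V → Bool) → V → ℕ} (h : Adapted blk) (s : ℕ → Bool) :
    Function.Injective (flipB blk s) := by
  intro u u' huu
  have key : ∀ t : ℕ, (∀ v, blk u v < t ↔ blk u' v < t) ∧ ∀ v, blk u v < t → u v = u' v := by
    intro t
    induction t with
    | zero => exact ⟨fun v => by simp, fun v hv => absurd hv (by omega)⟩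
    | succ t ih =>
      obtain ⟨ih1, ih2⟩ := ih
      classical
      set z : V → Bool := fun v => if blk u v < t then u v else xor (s t) (flipB blk s u v) with hz
      have e1 : ∀ v, blk u v ≤ t → z v = u v := by
        intro v hv
        simp only [hz]
        split_ifs with hlt
        · rfl
        · have : blk u v = t := by omega
          unfold flipB
          rw [this]
          simp
      have e2 : ∀ v, blk u' v ≤ t → z v = u' v := by
        intro v hv
        simp only [hz]
        split_ifs with hlt
        · exact ih2 v hlt
        · have hlt' : ¬ blk u' v < t := fun hh => hlt ((ih1 v).2 hh)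
          have : blk u' v = t := by omega
          rw [huu]
          unfold flipB
          rw [this]
          simp
      have s1 := h t u z e1
      have s2 := h t u' z e2
      have s3 : ∀ v, blk u v ≤ t ↔ blk u' v ≤ t := fun v => (s1 v).symm.trans (s2 v)
      refine ⟨fun v => ?_, fun v hv => ?_⟩
      · rw [Nat.lt_succ_iff, Nat.lt_succ_iff]; exact s3 v
      · have hv' : blk u v ≤ t := by omega
        rw [← e1 v hv', e2 v ((s3 v).1 hv')]
  funext v
  exact (key (blk u v + 1)).2 v (by omega)

section

variable [Fintype V]

theorem flipB_bijective [DecidableEq V] {blk : (V → Bool) → V → ℕ} (h : Adapted blk)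
    (s : ℕ → Bool) : Function.Bijective (flipB blk s) :=
  Finite.injective_iff_bijective.1 (flipB_injective h s)

open Classical in
/-- The blockwise flip preserves the fair law. -/
theorem sum_flipB {blk : (V → Bool) → V → ℕ} (h : Adapted blk) (s : ℕ → Bool) {M : Type*}
    [AddCommMonoid M] (F : (V → Bool) → M) : ∑ u, F (flipB blk s u) = ∑ u, F u :=
  Function.Bijective.sum_comp (flipB_bijective h s) F

open Classical in
/-- Comparison with a bounded density. -/
theorem sum_flipB_le {blk : (V → Bool) → V → ℕ} (h : Adapted blk) (s : ℕ → Bool)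
    {F D : (V → Bool) → ℝ} (hF : ∀ u, 0 ≤ F u) {C : ℝ} (hD : ∀ u, D u ≤ C) :
    ∑ u, D u * F (flipB blk s u) ≤ C * ∑ u, F u := by
  rw [← sum_flipB h s F, Finset.mul_sum]
  exact Finset.sum_le_sum fun u _ => mul_le_mul_of_nonneg_right (hD u) (hF _)

end

/-! ### Composition of two stages of exploration -/

/-- Colours of `u` on `A`, of `u'` off `A`. -/
noncomputable def mixB (A : Set V) (u u' : V → Bool) (v : V) : Bool :=
  open Classical in if v ∈ A then u v else u' v

theorem mixB_mem {A : Set V} {u u' : V → Bool} {v : V} (h : v ∈ A) : mixB A u u' v = u v := by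
  unfold mixB; rw [if_pos h]

theorem mixB_not {A : Set V} {u u' : V → Bool} {v : V} (h : v ∉ A) : mixB A u u' v = u' v := by
  unfold mixB; rw [if_neg h]

/-- A stopping set. -/
def Stopping (A : (V → Bool) → Set V) : Prop :=
  ∀ u u' : V → Bool, (∀ v ∈ A u, u' v = u v) → A u' = A u

/-- Composite of a colouring explored on a stopping set and of an independent one elsewhere: the pair
(composite, rest) is a bijective image of the pair of colourings. -/
theorem composite_injective {A : (V → Bool) → Set V} (hA : Stopping A) :
    Function.Injective (fun p : (V → Bool) × (V → Bool) =>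
      (mixB (A p.1) p.1 p.2, mixB (A p.1) p.2 p.1)) := by
  rintro ⟨u, w⟩ ⟨u', w'⟩ h
  simp only [Prod.mk.injEq] at h
  obtain ⟨h1, h2⟩ := h
  have a1 : A (mixB (A u) u w) = A u := hA _ _ (fun v hv => mixB_mem hv)
  have a2 : A (mixB (A u') u' w') = A u' := hA _ _ (fun v hv => mixB_mem hv)
  have ha : A u = A u' := by rw [← a1, h1, a2]
  rw [← ha] at h1 h2
  have g1 : ∀ v, u v = u' v := by
    intro v
    by_cases hv : v ∈ A u
    · have := congrFun h1 v
      rwa [mixB_mem hv, mixB_mem hv] at this
    · have := congrFun h2 v
      rwa [mixB_not hv, mixB_not hv] at this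
  have g2 : ∀ v, w v = w' v := by
    intro v
    by_cases hv : v ∈ A u
    · have := congrFun h2 v
      rwa [mixB_mem hv, mixB_mem hv] at this
    · have := congrFun h1 v
      rwa [mixB_not hv, mixB_not hv] at this
  exact Prod.ext (funext g1) (funext g2)

open Classical in
/-- The composite colouring is fair. -/
theorem sum_composite [Fintype V] {A : (V → Bool) → Set V} (hA : Stopping A)
    (F : (V → Bool) → ℝ) : ∑ u : V → Bool, ∑ w : V → Bool, F (mixB (A u) u w) =
      2 ^ Fintype.card V * ∑ u, F u := by
  have hb : Function.Bijective (fun p : (V → Bool) × (V → Bool) =>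
      (mixB (A p.1) p.1 p.2, mixB (A p.1) p.2 p.1)) :=
    Finite.injective_iff_bijective.1 (composite_injective hA)
  have e1 : ∑ u : V → Bool, ∑ w : V → Bool, F (mixB (A u) u w) =
      ∑ p : (V → Bool) × (V → Bool), (fun q : (V → Bool) × (V → Bool) => F q.1)
        ((fun p : (V → Bool) × (V → Bool) =>
          (mixB (A p.1) p.1 p.2, mixB (A p.1) p.2 p.1)) p) := by
    rw [Fintype.sum_prod_type]
  rw [e1, hb.sum_comp (fun q : (V → Bool) × (V → Bool) => F q.1), Fintype.sum_prod_type]
  simp only [Finset.sum_const, Finset.card_univ, Fintype.card_fun, Fintype.card_bool, nsmul_eq_mul]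
  rw [← Finset.mul_sum]
  push_cast
  ring

end Vale.Agent.P148.R2.H897
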