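import Vale.Agent.P148.R2.H258.A9
import Vale.Agent.P148.R2.H320.Disp

/-!
# P148, row C0: calibration of the drift constant from the three colour patterns on one domain

`T` planar with outer dart `o`; `q : D → ℂ` is the real position of the tail of a dart (a function of
the vertex away from the three corners of `o`).  If in each of the three patterns the class of the
outer face carries `c` times the displacement of its two landing points, up to an error, then
`c (y₀ + τ² y₁ + τ y₂)` is bounded by the errors, `y_j` = mean landing position on the arc `j`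
(the same in the two patterns which land there).
-/

namespace Vale.Agent.P148.R2.H897

open Function ComplexConjugate
open Vale.Agent.P148.R2.H258 Vale.Agent.P148.R2.H320

variable {V D : Type*} (T : Tri V D)

/-! ### Means over the colourings for which `p` is a minority dart -/

open Classical in
/-- Mean of `f` given that `p` is a minority dart. -/
noncomputable def av [Fintype V] {E : Type*} [AddCommGroup E] [Module ℝ E] (p : D)
    (f : (V → Bool) → E) : E :=
  (4 / 2 ^ Fintype.card V : ℝ) • ∑ σ : V → Bool, if T.Mi σ p then f σ else 0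

section av

variable [Fintype V] {E : Type*} [AddCommGroup E] [Module ℝ E] {p : D}

theorem av_add (f g : (V → Bool) → E) : av T p (fun σ => f σ + g σ) = av T p f + av T p g := by
  unfold av
  rw [← smul_add, ← Finset.sum_add_distrib]
  congr 1
  apply Finset.sum_congr rfl
  intro σ _
  split_ifs <;> simp

theorem av_sub (f g : (V → Bool) → E) : av T p (fun σ => f σ - g σ) = av T p f - av T p g := by
  unfold av
  rw [← smul_sub, ← Finset.sum_sub_distrib]
  congr 1
  apply Finset.sum_congr rfl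
  intro σ _
  split_ifs <;> simp

theorem av_congr {f g : (V → Bool) → E} (h : ∀ σ, T.Mi σ p → f σ = g σ) :
    av T p f = av T p g := by
  unfold av
  congr 1
  apply Finset.sum_congr rfl
  intro σ _
  split_ifs with hm
  · exact h σ hm
  · rfl

theorem av_map {F : Type*} [AddCommGroup F] [Module ℝ F] (L : E →ₗ[ℝ] F) (f : (V → Bool) → E) :
    av T p (fun σ => L (f σ)) = L (av T p f) := by
  unfold av
  rw [map_smul, map_sum]
  congr 1
  apply Finset.sum_congr rfl
  intro σ _
  split_ifs <;> simp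

theorem av_one (hp : T.Good p) : av T p (fun _ => (1 : ℝ)) = 1 := by
  classical
  have h := T.four_mul_mi hp
  have h2 : (4 * (∑ σ : V → Bool, if T.Mi σ p then (1 : ℝ) else 0)) = 2 ^ Fintype.card V := by
    have h3 : ((4 * (∑ σ : V → Bool, if T.Mi σ p then (1 : ℝ) else 0) : ℝ) : ℂ) =
        ((2 ^ Fintype.card V : ℝ) : ℂ) := by
      push_cast
      refine Eq.trans ?_ h
      congr 1
      apply Finset.sum_congr rfl
      intro σ _
      split_ifs <;> simp
    exact_mod_cast h3
  unfold av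
  have h4 : (2 : ℝ) ^ Fintype.card V ≠ 0 := by positivity
  rw [smul_eq_mul]
  field_simp
  exact h2

theorem av_mono {f g : (V → Bool) → ℝ} (h : ∀ σ, T.Mi σ p → f σ ≤ g σ) : av T p f ≤ av T p g := by
  classical
  unfold av
  rw [smul_eq_mul, smul_eq_mul]
  apply mul_le_mul_of_nonneg_left _ (by positivity)
  apply Finset.sum_le_sum
  intro σ _
  split_ifs with hm
  · exact h σ hm
  · exact le_rfl

theorem norm_av_le (f : (V → Bool) → ℂ) : ‖av T p f‖ ≤ av T p (fun σ => ‖f σ‖) := by
  classical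
  unfold av
  rw [norm_smul, smul_eq_mul, Real.norm_of_nonneg (by positivity)]
  apply mul_le_mul_of_nonneg_left _ (by positivity)
  refine (norm_sum_le _ _).trans ?_
  apply Finset.sum_le_sum
  intro σ _
  split_ifs <;> simp

/-- Means lie in convex sets which contain all the values. -/
theorem av_mem (hp : T.Good p) {S : Set E} (hS : Convex ℝ S) {f : (V → Bool) → E}
    (h : ∀ σ, T.Mi σ p → f σ ∈ S) : av T p f ∈ S := by
  classical
  have h1 := av_one T hp
  unfold av at h1 ⊢
  rw [Finset.smul_sum] at h1 ⊢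
  have e1 : ∀ σ : V → Bool, (4 / 2 ^ Fintype.card V : ℝ) • (if T.Mi σ p then f σ else 0) =
      if T.Mi σ p then (4 / 2 ^ Fintype.card V : ℝ) • f σ else 0 := by
    intro σ; split_ifs <;> simp
  have e2 : ∀ σ : V → Bool, (4 / 2 ^ Fintype.card V : ℝ) • (if T.Mi σ p then (1 : ℝ) else 0) =
      if T.Mi σ p then (4 / 2 ^ Fintype.card V : ℝ) else 0 := by
    intro σ; split_ifs <;> simp
  simp only [e1, e2] at h1 ⊢
  rw [← Finset.sum_filter] at h1 ⊢
  apply hS.sum_mem
  · intro σ _; positivity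
  · exact h1
  · intro σ hσ
    exact h σ (Finset.mem_filter.1 hσ).2

theorem av_cls [Fintype D] (Θ : D → ℂ) : av T p (fun σ => T.cls σ p Θ) = T.EE p Θ := by
  classical
  rw [T.EE_eq]
  unfold av
  rw [Complex.real_smul]
  push_cast
  congr 1
  apply Finset.sum_congr rfl
  intro σ _
  split_ifs with h
  · rfl
  · unfold Tri.cls
    symm
    apply Finset.sum_eq_zero
    intro e _
    rw [if_neg (fun hh => h hh.2.1)]

end av

/-! ### Landing corners -/

open Classical in
/-- First member of the class of `p` after `p`. -/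
noncomputable def beg (σ : V → Bool) (p : D) : D :=
  if h : ∃ g, T.Rel σ p g ∧ T.src g = T.apex p then h.choose else p

open Classical in
/-- The last corner of the class of `p`: tail at the vertex `src p`. -/
noncomputable def fin (σ : V → Bool) (p : D) : D :=
  if h : ∃ g, T.Rel σ p g ∧ T.apex g = T.src p then T.nxt (T.nxt h.choose) else p

section

variable [Finite D] (hP : T.Planar) {σ : V → Bool} {p : D} (h : T.Mi σ p) (hg : T.Good p)
include hP h hg

theorem beg_spec : T.Rel σ p (beg T σ p) ∧ T.src (beg T σ p) = T.apex p := by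
  have hex : ∃ g, T.Rel σ p g ∧ T.src g = T.apex p := by
    obtain ⟨g₁, g₂, h1, h2, -, -⟩ := exists_ends hP h hg
    exact ⟨g₁, h1, h2⟩
  unfold beg
  rw [dif_pos hex]
  exact hex.choose_spec

theorem fin_spec : ∃ g, T.Rel σ p g ∧ T.apex g = T.src p ∧ fin T σ p = T.nxt (T.nxt g) := by
  have hex : ∃ g, T.Rel σ p g ∧ T.apex g = T.src p := by
    obtain ⟨g₁, g₂, -, -, h1, h2⟩ := exists_ends hP h hg
    exact ⟨g₂, h1, h2⟩
  refine ⟨hex.choose, hex.choose_spec.1, hex.choose_spec.2, ?_⟩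
  unfold fin
  rw [dif_pos hex]

theorem src_beg : T.src (beg T σ p) = T.apex p := (beg_spec T hP h hg).2

theorem src_fin : T.src (fin T σ p) = T.src p := by
  obtain ⟨g, -, h2, h3⟩ := fin_spec T hP h hg
  rw [h3, T.src_nxt2, h2]

end

variable {T}

theorem wt_nxt_o (τ : ℂ) (o : D) (φ : D → ℝ) : wt T τ (T.nxt o) φ = wt T τ o φ := by
  classical
  funext d
  unfold wt
  rw [T.nxt3]
  have : (T.Good d ∧ d ≠ T.nxt o ∧ d ≠ T.nxt (T.nxt o) ∧ d ≠ o) ↔
      (T.Good d ∧ d ≠ o ∧ d ≠ T.nxt o ∧ d ≠ T.nxt (T.nxt o)) := by tauto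
  simp only [this]

theorem cmp_nxt {o : D} {φ : D → ℝ} (h : Cmp T o φ) : Cmp T (T.nxt o) φ := by
  intro d e h1 h2 h3 h4
  rw [T.src_nxt'] at h2
  rw [T.tgt_nxt] at h3
  rw [T.apex_nxt] at h4
  exact h d e h1 h4 h2 h3

theorem cls_wt_im [Fintype D] (hP : T.Planar) {σ : V → Bool} {o : D} (h : T.Mi σ o)
    (hg : T.Good o) {τ : ℂ} (hτ : τ ^ 2 + τ + 1 = 0) {φ : D → ℝ} (hφ : Cmp T o φ) :
    (T.cls σ o (wt T τ o φ)).im = τ.im * (φ (fin T σ o) - φ (beg T σ o)) := by
  obtain ⟨g, h1, h2, h3⟩ := fin_spec T hP h hg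
  obtain ⟨h4, h5⟩ := beg_spec T hP h hg
  rw [h3]
  exact cls_im hP h hg hτ hφ h4 h5 h1 h2

theorem EE_wt_im [Fintype D] [Fintype V] (hP : T.Planar) {o : D} (hg : T.Good o) {τ : ℂ}
    (hτ : τ ^ 2 + τ + 1 = 0) {φ : D → ℝ} (hφ : Cmp T o φ) :
    (T.EE o (wt T τ o φ)).im =
      τ.im * (av T o (fun σ => φ (fin T σ o)) - av T o (fun σ => φ (beg T σ o))) := by
  rw [← av_cls, ← av_sub]
  have e1 := av_map T (p := o) Complex.imLm (fun σ => T.cls σ o (wt T τ o φ))
  simp only [Complex.imLm_coe] at e1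
  rw [← e1]
  have e2 := av_map T (p := o) (τ.im • (LinearMap.id : ℝ →ₗ[ℝ] ℝ))
    (fun σ => φ (fin T σ o) - φ (beg T σ o))
  simp only [LinearMap.smul_apply, LinearMap.id_coe, id_eq, smul_eq_mul] at e2
  rw [← e2]
  exact av_congr T (fun σ hσ => cls_wt_im hP hσ hg hτ hφ)

theorem EE_wt_rot [Fintype D] [Fintype V] (hP : T.Planar) {o : D} {τ : ℂ}
    (hτ : τ ^ 2 + τ + 1 = 0) (φ : D → ℝ) :
    T.EE (T.nxt o) (wt T τ o φ) = τ * T.EE o (wt T τ o φ) ∧
      T.EE (T.nxt (T.nxt o)) (wt T τ o φ) = τ ^ 2 * T.EE o (wt T τ o φ) :=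
  T.EE_rot' hP hτ (wt_nxt T hτ o φ) (wt_outer T)

/-- The sum of the three mean displacements vanishes. -/
theorem sum_disp [Fintype D] [Fintype V] (hP : T.Planar) {o : D} (hg : T.Good o) {φ : D → ℝ}
    (hφ : Cmp T o φ) :
    (av T o (fun σ => φ (fin T σ o)) - av T o (fun σ => φ (beg T σ o))) +
    (av T (T.nxt o) (fun σ => φ (fin T σ (T.nxt o))) -
      av T (T.nxt o) (fun σ => φ (beg T σ (T.nxt o)))) +
    (av T (T.nxt (T.nxt o)) (fun σ => φ (fin T σ (T.nxt (T.nxt o)))) -
      av T (T.nxt (T.nxt o)) (fun σ => φ (beg T σ (T.nxt (T.nxt o))))) = 0 := by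
  set τ : ℂ := ⟨-1 / 2, Real.sqrt 3 / 2⟩ with hτd
  have h3 : Real.sqrt 3 ^ 2 = 3 := Real.sq_sqrt (by norm_num)
  have hτ : τ ^ 2 + τ + 1 = 0 := by
    apply Complex.ext
    · simp [hτd, pow_two]
      nlinarith
    · simp [hτd, pow_two]
      ring
  have him : τ.im ≠ 0 := by
    show Real.sqrt 3 / 2 ≠ 0
    positivity
  have a0 := EE_wt_im hP hg hτ hφ
  have a1 := EE_wt_im hP hg.nxt hτ (cmp_nxt hφ)
  have a2 := EE_wt_im hP hg.nxt.nxt hτ (cmp_nxt (cmp_nxt hφ))
  rw [wt_nxt_o] at a1
  rw [wt_nxt_o, wt_nxt_o] at a2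
  obtain ⟨r1, r2⟩ := EE_wt_rot hP (o := o) hτ φ
  rw [r1] at a1
  rw [r2] at a2
  have hs : (T.EE o (wt T τ o φ)).im + (τ * T.EE o (wt T τ o φ)).im +
      (τ ^ 2 * T.EE o (wt T τ o φ)).im = 0 := by
    rw [← Complex.add_im, ← Complex.add_im]
    have : T.EE o (wt T τ o φ) + τ * T.EE o (wt T τ o φ) + τ ^ 2 * T.EE o (wt T τ o φ) =
        (τ ^ 2 + τ + 1) * T.EE o (wt T τ o φ) := by ring
    rw [this, hτ, zero_mul, Complex.zero_im]
  rw [a0, a1, a2, ← mul_add, ← mul_add] at hs
  exact (mul_eq_zero.1 hs).resolve_left him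

open Classical in
/-- **The two patterns which land on the arc `src o` have the same landing law.** -/
theorem land_eq [Fintype D] [Fintype V] (hP : T.Planar) {o : D} (hg : T.Good o) (φ : D → ℝ) :
    av T o (fun σ => φ (fin T σ o)) = av T (T.nxt o) (fun σ => φ (beg T σ (T.nxt o))) := by
  set ψ : D → ℝ := fun d => if T.src d = T.src o then φ d else 0 with hψ
  have hc : Cmp T o ψ := by
    intro d e h1 h2 h3 h4
    simp only [hψ]
    rw [if_neg h2, if_neg (h1 ▸ h2)]
  have hs := sum_disp hP hg hc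
  have b0 : av T o (fun σ => ψ (fin T σ o)) = av T o (fun σ => φ (fin T σ o)) := by
    apply av_congr
    intro σ hσ
    simp only [hψ]
    rw [if_pos (src_fin T hP hσ hg)]
  have b1 : av T o (fun σ => ψ (beg T σ o)) = av T o (fun _ => (0 : ℝ)) := by
    apply av_congr
    intro σ hσ
    simp only [hψ]
    rw [if_neg]
    rw [src_beg T hP hσ hg]
    exact hg.2.2
  have b2 : av T (T.nxt o) (fun σ => ψ (fin T σ (T.nxt o))) = av T (T.nxt o) (fun _ => (0 : ℝ)) := by
    apply av_congr
    intro σ hσ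
    simp only [hψ]
    rw [if_neg]
    rw [src_fin T hP hσ hg.nxt, T.src_nxt']
    exact hg.1.symm
  have b3 : av T (T.nxt o) (fun σ => ψ (beg T σ (T.nxt o))) =
      av T (T.nxt o) (fun σ => φ (beg T σ (T.nxt o))) := by
    apply av_congr
    intro σ hσ
    simp only [hψ]
    rw [if_pos]
    rw [src_beg T hP hσ hg.nxt, T.apex_nxt]
  have b4 : av T (T.nxt (T.nxt o)) (fun σ => ψ (fin T σ (T.nxt (T.nxt o)))) =
      av T (T.nxt (T.nxt o)) (fun _ => (0 : ℝ)) := by
    apply av_congr
    intro σ hσ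
    simp only [hψ]
    rw [if_neg]
    rw [src_fin T hP hσ hg.nxt.nxt, T.src_nxt2]
    exact hg.2.2
  have b5 : av T (T.nxt (T.nxt o)) (fun σ => ψ (beg T σ (T.nxt (T.nxt o)))) =
      av T (T.nxt (T.nxt o)) (fun _ => (0 : ℝ)) := by
    apply av_congr
    intro σ hσ
    simp only [hψ]
    rw [if_neg]
    rw [src_beg T hP hσ hg.nxt.nxt, T.apex_nxt2]
    exact hg.1.symm
  have z : ∀ p : D, av T p (fun _ => (0 : ℝ)) = 0 := by
    intro p
    unfold av
    simp
  rw [b0, b1, b2, b3, b4, b5, z, z, z] at hs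
  linarith

end Vale.Agent.P148.R2.H897
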