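import Vale.Agent.P148.R2.H897.Cal1

/-!
# P148, row C0: the calibration inequality
-/

namespace Vale.Agent.P148.R2.H897

open Function ComplexConjugate
open Vale.Agent.P148.R2.H258 Vale.Agent.P148.R2.H320

variable {V D : Type*} {T : Tri V D}

/-- Algebra of the three patterns. -/
theorem cal_alg {τ : ℂ} (hτ : τ ^ 2 + τ + 1 = 0) (b c y₀ y₁ y₂ : ℂ) :
    c * (τ - τ ^ 2) * (y₀ + τ ^ 2 * y₁ + τ * y₂) =
      -((b - c * (y₁ - y₂)) + τ * (τ * b - c * (y₀ - y₁)) +
        τ ^ 2 * (τ ^ 2 * b - c * (y₂ - y₀))) := by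
  have h3 := Tri.tau_pow_three hτ
  linear_combination (b) * hτ + (b * τ - c * y₁ * τ + c * y₁ - c * y₂) * h3

theorem cal_norm {τ : ℂ} (hτ : τ ^ 2 + τ + 1 = 0) {b c y₀ y₁ y₂ : ℂ} {e₀ e₁ e₂ : ℝ}
    (h0 : ‖b - c * (y₁ - y₂)‖ ≤ e₀) (h1 : ‖τ * b - c * (y₀ - y₁)‖ ≤ e₁)
    (h2 : ‖τ ^ 2 * b - c * (y₂ - y₀)‖ ≤ e₂) :
    Real.sqrt 3 * (‖c‖ * ‖y₀ + τ ^ 2 * y₁ + τ * y₂‖) ≤ e₀ + e₁ + e₂ := by
  have h3 := Tri.tau_pow_three hτ
  have hn : ‖τ‖ = 1 := by
    have : ‖τ‖ ^ 3 = 1 := by rw [← norm_pow, h3, norm_one]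
    exact (pow_eq_one_iff_of_nonneg (norm_nonneg _) (by norm_num)).1 this
  have hs : ‖τ - τ ^ 2‖ = Real.sqrt 3 := by
    have h4 : ‖τ - τ ^ 2‖ ^ 2 = 3 := by
      have h5 : ((‖τ - τ ^ 2‖ ^ 2 : ℝ) : ℂ) = 3 := by
        have hc := Tri.conj_tau hτ
        rw [← Complex.normSq_eq_norm_sq, ← Complex.mul_conj]
        simp only [map_sub, map_pow, hc]
        linear_combination (-hτ) + (2 - τ + τ ^ 3 - τ ^ 2 + 1 - 1) * h3 - 0 * hτ
      exact_mod_cast h5
    rw [← h4, Real.sqrt_sq (norm_nonneg _)]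
  have h := congrArg norm (cal_alg hτ b c y₀ y₁ y₂)
  rw [norm_neg, norm_mul, norm_mul, hs] at h
  calc Real.sqrt 3 * (‖c‖ * ‖y₀ + τ ^ 2 * y₁ + τ * y₂‖)
      = ‖c‖ * Real.sqrt 3 * ‖y₀ + τ ^ 2 * y₁ + τ * y₂‖ := by ring
    _ = _ := h
    _ ≤ ‖b - c * (y₁ - y₂)‖ + ‖τ * (τ * b - c * (y₀ - y₁))‖ +
        ‖τ ^ 2 * (τ ^ 2 * b - c * (y₂ - y₀))‖ := norm_add₃_le
    _ ≤ e₀ + e₁ + e₂ := by
        rw [norm_mul, norm_mul, norm_pow, hn]
        linarith

/-- Compatibility of a complex function of the corners. -/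
def CmpC (T : Tri V D) (o : D) (q : D → ℂ) : Prop := ∀ d e, T.src d = T.src e →
  T.src d ≠ T.src o → T.src d ≠ T.tgt o → T.src d ≠ T.apex o → q d = q e

theorem CmpC.re' {o : D} {q : D → ℂ} (h : CmpC T o q) : Cmp T o (fun d => (q d).re) :=
  fun d e h1 h2 h3 h4 => congrArg Complex.re (h d e h1 h2 h3 h4)

theorem CmpC.im' {o : D} {q : D → ℂ} (h : CmpC T o q) : Cmp T o (fun d => (q d).im) :=
  fun d e h1 h2 h3 h4 => congrArg Complex.im (h d e h1 h2 h3 h4)

section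

variable [Fintype V] {p : D}

theorem av_re (f : (V → Bool) → ℂ) : (av T p f).re = av T p (fun σ => (f σ).re) := by
  have e1 := av_map T (p := p) Complex.reLm f
  simp only [Complex.reLm_coe] at e1
  exact e1.symm

theorem av_im (f : (V → Bool) → ℂ) : (av T p f).im = av T p (fun σ => (f σ).im) := by
  have e1 := av_map T (p := p) Complex.imLm f
  simp only [Complex.imLm_coe] at e1
  exact e1.symm

theorem av_mul (c : ℂ) (f : (V → Bool) → ℂ) : av T p (fun σ => c * f σ) = c * av T p f := by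
  classical
  unfold av
  have h : ∑ σ : V → Bool, (if T.Mi σ p then c * f σ else 0) =
      c * ∑ σ : V → Bool, if T.Mi σ p then f σ else 0 := by
    rw [Finset.mul_sum]
    apply Finset.sum_congr rfl
    intro σ _
    split_ifs <;> simp
  rw [Complex.real_smul, Complex.real_smul, mul_left_comm, ← h]

end

variable (T) in
/-- Mean landing position on the arc `src p`, for the pattern of `p`. -/
noncomputable def yf [Fintype V] (p : D) (q : D → ℂ) : ℂ := av T p (fun σ => q (fin T σ p))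

variable (T) in
/-- Mean landing position on the arc `apex p`, for the pattern of `p`. -/
noncomputable def yb [Fintype V] (p : D) (q : D → ℂ) : ℂ := av T p (fun σ => q (beg T σ p))

section

variable [Fintype D] [Fintype V] (hP : T.Planar) {o : D} (hg : T.Good o) (q : D → ℂ)
include hP hg

/-- The mean landing position on `src o` is the same in the two patterns which land there. -/
theorem yf_eq : yf T o q = yb T (T.nxt o) q := by
  apply Complex.ext
  · unfold yf yb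
    rw [av_re, av_re]
    exact land_eq hP hg (fun d => (q d).re)
  · unfold yf yb
    rw [av_im, av_im]
    exact land_eq hP hg (fun d => (q d).im)

theorem yf_mem : yf T o q ∈ convexHull ℝ (q '' {d | T.src d = T.src o}) := by
  apply av_mem T hg (convex_convexHull ℝ _)
  intro σ hσ
  exact subset_convexHull ℝ _ ⟨_, src_fin T hP hσ hg, rfl⟩

/-- **Calibration.** If in each pattern the class of the outer face is `c` times the displacement of
its landing points up to an error, then `c (y₀ + τ² y₁ + τ y₂)` is bounded by the mean errors. Here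
`y₁, y₀, y₂` are the mean landing positions on the arcs `src o`, `tgt o`, `apex o`. -/
theorem calib {τ : ℂ} (hτ : τ ^ 2 + τ + 1 = 0) {Θ : D → ℂ}
    (hΘ : ∀ d, Θ (T.nxt d) = τ ^ 2 * Θ d) (hΘo : Θ o = 0) (c : ℂ) {e₀ e₁ e₂ : ℝ}
    (h0 : av T o (fun σ => ‖T.cls σ o Θ - c * (q (fin T σ o) - q (beg T σ o))‖) ≤ e₀)
    (h1 : av T (T.nxt o) (fun σ => ‖T.cls σ (T.nxt o) Θ -
      c * (q (fin T σ (T.nxt o)) - q (beg T σ (T.nxt o)))‖) ≤ e₁)
    (h2 : av T (T.nxt (T.nxt o)) (fun σ => ‖T.cls σ (T.nxt (T.nxt o)) Θ -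
      c * (q (fin T σ (T.nxt (T.nxt o))) - q (beg T σ (T.nxt (T.nxt o))))‖) ≤ e₂) :
    Real.sqrt 3 * (‖c‖ * ‖yf T (T.nxt o) q + τ ^ 2 * yf T o q +
      τ * yf T (T.nxt (T.nxt o)) q‖) ≤ e₀ + e₁ + e₂ := by
  obtain ⟨r1, r2⟩ := T.EE_rot' hP hτ hΘ hΘo
  have y1 := yf_eq hP hg q
  have y0 := yf_eq hP hg.nxt q
  have y2 := yf_eq hP hg.nxt.nxt q
  rw [T.nxt3] at y2
  have key : ∀ p : D, av T p (fun σ => T.cls σ p Θ - c * (q (fin T σ p) - q (beg T σ p))) =
      T.EE p Θ - c * (yf T p q - yb T p q) := by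
    intro p
    rw [av_sub, av_cls, av_mul, av_sub]
    rfl
  have k0 := key o
  have k1 := key (T.nxt o)
  have k2 := key (T.nxt (T.nxt o))
  rw [← y2] at k0
  rw [← y1, r1] at k1
  rw [← y0, r2] at k2
  apply cal_norm hτ (b := T.EE o Θ)
  · rw [← k0]
    exact (norm_av_le T _).trans h0
  · rw [← k1]
    exact (norm_av_le T _).trans h1
  · rw [← k2]
    exact (norm_av_le T _).trans h2

end

end Vale.Agent.P148.R2.H897
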