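import Vale.Agent.P148.R2.H897.CalTime
import Vale.Agent.P148.R2.H959.CalPos
import Vale.Agent.P148.R2.H659.Close5
import Vale.Agent.P148.R2.H251.W3h

/-!
# Row CAL: the dichotomy on a marked frame

`dich_of_mrk` : for a marked frame (gates `g₀ < g₁ < g₂`), the three-class world of helper251, a dart
`q` of the frozen face with `tgt q` in the class `γ`, fresh colours `s` and a colouring `τ` of the
plane which has the form `Mark` for the arc `γ` and which is `s` on the free sites off the zone `Z`: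
the dichotomy `Dich` holds for the pattern `patt γ s`.
-/

namespace Vale.Agent.P148.R2.H897

open Function Vale.Agent.P148.R2.H258 Vale.Agent.P148.R2.H258.Tri Vale.Agent.P148.R2.H659
  Vale.Agent.P148.R2.H871 Vale.Agent.P148.R2.H953 Vale.Agent.P148.R2.H838
  Vale.Agent.P148.R2.H251 Vale.Agent.P148.R2.H565
open Vale.Agent.P148.R2.N (ms nc)
open Vale.Agent.P148.R2.H566 (W0)
open Vale.Agent.P148.R2.H609 (TP piX)
open Vale.Agent.P148.R2.H172 (Frame)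
open Vale.Agent.P148.R2.H959 (Mrk ag bg)

variable {M : ℕ} {w : W0} {x₀ : w.X} {col : w.X → Bool} {F : Frame M w x₀ col}
  {g₀ g₁ g₂ n s₁ s₂ : ℕ} {c : ℕ → w.D} {tm : ℕ → ℕ}

/-- The cuts of a marked frame. -/
theorem cut_of_mrk (hm : Mrk F g₀ g₁ g₂ n s₁ s₂ c tm) (h01 : g₀ ≤ g₁) (h12 : g₁ ≤ g₂)
    (h20 : g₂ ≤ g₀ + nc M) :
    Cut n s₁ s₂ tm (fun k => F.t (g₀ + k) - F.t g₀) (g₁ - g₀) (g₂ - g₀) (nc M) where
  lt1 i hi := by
    have h1 := hm.cut1 i hi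
    have h2 : g₀ + (g₁ - g₀) = g₁ := by omega
    simpa only [h2] using h1
  lt2 i hi := by
    have h1 := hm.cut2 i hi
    have h2 : g₀ + (g₂ - g₀) = g₂ := by omega
    simpa only [h2] using h1
  le1 := by omega
  le2 := by omega

/-- The windows of the arcs in gates. -/
theorem win_gates (h01 : g₀ ≤ g₁) (h12 : g₁ ≤ g₂) (γ : Fin 3) :
    g₀ + (win (g₁ - g₀) (g₂ - g₀) (nc M) γ).1 = ag g₀ g₁ g₂ γ ∧
      g₀ + (win (g₁ - g₀) (g₂ - g₀) (nc M) γ).2 = bg M g₀ g₁ g₂ γ := by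
  have hj : γ = 0 ∨ γ = 1 ∨ γ = 2 := (by decide : ∀ j : Fin 3, j = 0 ∨ j = 1 ∨ j = 2) γ
  have h21 : ¬ ((2 : Fin 3) = 1) := by decide
  have h01' : ¬ ((0 : Fin 3) = 1) := by decide
  have h02 : ¬ ((0 : Fin 3) = 2) := by decide
  rcases hj with rfl | rfl | rfl
  · have e1 : ag g₀ g₁ g₂ 0 = g₂ := by unfold ag; rw [if_neg h01', if_neg h02]
    have e2 : bg M g₀ g₁ g₂ 0 = g₀ + nc M := by unfold bg; rw [if_neg h01', if_neg h02]
    rw [e1, e2]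
    constructor <;> simp only [win] <;> omega
  · have e1 : ag g₀ g₁ g₂ 1 = g₀ := by unfold ag; rw [if_pos rfl]
    have e2 : bg M g₀ g₁ g₂ 1 = g₁ := by unfold bg; rw [if_pos rfl]
    rw [e1, e2]
    constructor <;> simp only [win] <;> omega
  · have e1 : ag g₀ g₁ g₂ 2 = g₁ := by unfold ag; rw [if_neg h21, if_pos rfl]
    have e2 : bg M g₀ g₁ g₂ 2 = g₂ := by unfold bg; rw [if_neg h21, if_pos rfl]
    rw [e1, e2]
    constructor <;> simp only [win] <;> omega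

section inst

variable {O3 : Fin 3 → Set ℂ} {h3 : Three3 w.X w.B O3}

/-- **The dichotomy on a marked frame.** -/
theorem dich_of_mrk (hm : Mrk F g₀ g₁ g₂ n s₁ s₂ c tm)
    (hW : W3 (TP w x₀) (TC w.hull h3) (piX w) w.O col c n s₁ s₂
      (fun j => {v : w.X | v.1 ∈ O3 j}) (pi3 w.X O3) Sum.inl)
    (h01 : g₀ ≤ g₁) (h12 : g₁ ≤ g₂) (h20 : g₂ ≤ g₀ + nc M) {γ : Fin 3} {τ s : w.X → Bool}
    {Z Z' : Set w.X} (hZ : Z ⊆ Z')
    (hmk : Mark (TP w x₀) col (((TP w x₀).st col)^[F.t g₀] F.o) (nc M)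
      (fun k => F.t (g₀ + k) - F.t g₀) (ag g₀ g₁ g₂ γ - g₀) (bg M g₀ g₁ g₂ γ - g₀) τ Z)
    (hfr : ∀ v : w.X, v ∉ Z → v.1 ∉ w.B → τ v = s v) {q : w.D}
    (hq : (TC w.hull h3).InFace (c (s₁ - 1)) q) (hγ : ((TP w x₀).tgt q).1 ∈ O3 γ) :
    ∃ α β, ((TP w x₀).src q).1 ∈ O3 α ∧ ((TP w x₀).apex q).1 ∈ O3 β ∧
      Dich (TP w x₀) (TC w.hull h3) (piX w) w.O c n s₁ s₂ (pi3 w.X O3) Sum.inl
        (patt w.X O3 γ s) q α β γ Z Z' τ := by
  obtain ⟨e1, e2⟩ := win_gates (M := M) h01 h12 γ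
  have hmk' : Mark (TP w x₀) col (((TP w x₀).st col)^[F.t g₀] F.o) (nc M)
      (fun k => F.t (g₀ + k) - F.t g₀) (win (g₁ - g₀) (g₂ - g₀) (nc M) γ).1
      (win (g₁ - g₀) (g₂ - g₀) (nc M) γ).2 τ Z := by
    rw [← e1, ← e2, Nat.add_sub_cancel_left, Nat.add_sub_cancel_left] at hmk
    exact hmk
  have hL : LoopT (TP w x₀) col (nc M) (((TP w x₀).st col)^[F.t g₀] F.o)
      (fun k => F.t (g₀ + k) - F.t g₀) := hm.feet.loopT
  obtain ⟨a1, a2, a3⟩ := hW.o_corners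
  have hg' : (TP w x₀).tgt q ∈ (fun j => {v : w.X | v.1 ∈ O3 j}) γ := hγ
  obtain ⟨α, β, ha, hb, hαγ, hβγ⟩ : ∃ α β : Fin 3,
      (TP w x₀).src q ∈ (fun j => {v : w.X | v.1 ∈ O3 j}) α ∧
      (TP w x₀).apex q ∈ (fun j => {v : w.X | v.1 ∈ O3 j}) β ∧ α ≠ γ ∧ β ≠ γ := by
    rcases hq with rfl | rfl | rfl
    · obtain rfl := hW.cls_unique hg' a2
      exact ⟨_, _, a1, a3, by decide, by decide⟩
    · rw [hW.contr.nxt, (TP w x₀).tgt_nxt] at hg'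
      obtain rfl := hW.cls_unique hg' a3
      refine ⟨0, 1, ?_, ?_, by decide, by decide⟩
      · rw [hW.contr.nxt, (TP w x₀).src_nxt']; exact a2
      · rw [hW.contr.nxt, (TP w x₀).apex_nxt]; exact a1
    · rw [hW.contr.nxt, hW.contr.nxt, (TP w x₀).tgt_nxt2] at hg'
      obtain rfl := hW.cls_unique hg' a1
      refine ⟨2, 0, ?_, ?_, by decide, by decide⟩
      · rw [hW.contr.nxt, hW.contr.nxt, (TP w x₀).src_nxt2]; exact a3
      · rw [hW.contr.nxt, hW.contr.nxt, (TP w x₀).apex_nxt2]; exact a2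
  have hmi : (TC w.hull h3).Mi (patt w.X O3 γ s) q := by
    refine ⟨?_, ?_⟩
    · rw [hW.src3 ha, hW.tgt3 hg', patt_inl, patt_inl]
      simp [hαγ]
    · rw [hW.src3 ha, hW.apex3 hb, patt_inl, patt_inl]
      simp [hαγ, hβγ]
  refine ⟨α, β, ha, hb, ?_⟩
  refine cal_inst hW hL hm.loop (cut_of_mrk hm h01 h12 h20) hq hmi ha hb hg' hZ hmk' ?_ ?_ ?_
  · rw [patt_inl]; simp
  · intro j hj
    rw [patt_inl]; simp [hj]
  · intro v hv hv'
    rw [patt_free' h3 γ s hv']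
    exact hfr v hv fun hb => hv' (H959.piX_eq_iff.2 hb)

end inst

end Vale.Agent.P148.R2.H897
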