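import Vale.Agent.P148.R2.H897.CalInst
import Vale.Agent.P148.R2.H953.CalEv

/-!
# Row CAL: the dichotomy on a marked frame, for the darts `qd`
-/

namespace Vale.Agent.P148.R2.H897

open Function Vale.Agent.P148.R2.H258 Vale.Agent.P148.R2.H258.Tri Vale.Agent.P148.R2.H659
  Vale.Agent.P148.R2.H871 Vale.Agent.P148.R2.H953 Vale.Agent.P148.R2.H838
  Vale.Agent.P148.R2.H251 Vale.Agent.P148.R2.H565
open Vale.Agent.P148.R2.N (ms nc)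
open Vale.Agent.P148.R2.H566 (W0)
open Vale.Agent.P148.R2.H609 (TP piX)
open Vale.Agent.P148.R2.H172 (Frame)
open Vale.Agent.P148.R2.H959 (Mrk ag bg)

variable {M : ℕ} {w : W0} {x₀ : w.X} {col : w.X → Bool} {F : Frame M w x₀ col}
  {g₀ g₁ g₂ n s₁ s₂ : ℕ} {c : ℕ → w.D} {tm : ℕ → ℕ}
  {O3 : Fin 3 → Set ℂ} {h3 : Three3 w.X w.B O3}

/-- **The dichotomy on a marked frame**, for the dart `qd γ` of the frozen face. -/
theorem dich_qd (hm : Mrk F g₀ g₁ g₂ n s₁ s₂ c tm)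
    (hW : W3 (TP w x₀) (TC w.hull h3) (piX w) w.O col c n s₁ s₂
      (fun j => {v : w.X | v.1 ∈ O3 j}) (pi3 w.X O3) Sum.inl)
    (h01 : g₀ ≤ g₁) (h12 : g₁ ≤ g₂) (h20 : g₂ ≤ g₀ + nc M) {γ : Fin 3} {τ s : w.X → Bool}
    {Z Z' : Set w.X} (hZ : Z ⊆ Z')
    (hmk : Mark (TP w x₀) col (((TP w x₀).st col)^[F.t g₀] F.o) (nc M)
      (fun k => F.t (g₀ + k) - F.t g₀) (ag g₀ g₁ g₂ γ - g₀) (bg M g₀ g₁ g₂ γ - g₀) τ Z)
    (hfr : ∀ v : w.X, v ∉ Z → v.1 ∉ w.B → τ v = s v) :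
    Dich (TP w x₀) (TC w.hull h3) (piX w) w.O c n s₁ s₂ (pi3 w.X O3) Sum.inl
        (patt w.X O3 γ s) (qd (TC w.hull h3) (c (s₁ - 1)) γ) (γ + 1) (γ + 2) γ Z Z' τ := by
  obtain ⟨f1, f2, f3, f4⟩ := qd_facts hW γ
  obtain ⟨α, β, ha, hb, hD⟩ := dich_of_mrk hm hW h01 h12 h20 hZ hmk hfr f1 f4
  have e1 : α = γ + 1 := hW.cls_unique (show (TP w x₀).src (qd (TC w.hull h3) (c (s₁ - 1)) γ) ∈
    (fun j => {v : w.X | v.1 ∈ O3 j}) α from ha) f2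
  have e2 : β = γ + 2 := hW.cls_unique (show (TP w x₀).apex (qd (TC w.hull h3) (c (s₁ - 1)) γ) ∈
    (fun j => {v : w.X | v.1 ∈ O3 j}) β from hb) f3
  rw [e1, e2] at hD
  exact hD

end Vale.Agent.P148.R2.H897
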