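import Vale.Agent.P148.R2.H897.CalInst2
import Vale.Agent.P148.R2.H172.Sc3
import Vale.Agent.P148.R2.H995.CalSc

/-!
# Row CAL: the dichotomy on the scene of the comb

`mrk_base` : the marked frame on `F.bn g₀`, `F.bc g₀`, `F.bt g₀` of helper172.
`dich_scene` : the dichotomy for the total world `wd h M (cw M c₁ c₂)`, the colouring `calT` of
helper995 and the three arcs between the gates `g₀ < g₁ < g₂ < g₀ + nc M`.
-/

namespace Vale.Agent.P148.R2.H897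

open Function Vale.Agent.P148.R2.H258 Vale.Agent.P148.R2.H258.Tri Vale.Agent.P148.R2.H659
  Vale.Agent.P148.R2.H871 Vale.Agent.P148.R2.H953 Vale.Agent.P148.R2.H838
  Vale.Agent.P148.R2.H251 Vale.Agent.P148.R2.H565
open Vale.Agent.P148.R2.N (ms nc)
open Vale.Agent.P148.R2.H566 (W0)
open Vale.Agent.P148.R2.H609 (TP piX)
open Vale.Agent.P148.R2.H172 (Frame)
open Vale.Agent.P148.R2.H959 (Mrk ag bg)

variable {M : ℕ} {w : W0} {x₀ : w.X} {col : w.X → Bool} {g₀ g₁ g₂ : ℕ}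

/-- **The marked frame on the chosen base.** -/
theorem mrk_base (F : Frame M w x₀ col) (h01 : g₀ + 3 ≤ g₁) (h12 : g₁ + 3 ≤ g₂)
    (h20 : g₂ + 3 ≤ g₀ + nc M) :
    ∃ s₁ s₂, Mrk F g₀ g₁ g₂ (F.bn g₀) s₁ s₂ (F.bc g₀) (F.bt g₀) := by
  have hL : H659.Loop (TP w x₀) (piX w) w.O col (((TP w x₀).st col)^[F.t g₀] F.o) (F.bn g₀)
    (F.bc g₀) (F.bt g₀) := F.base_loop g₀
  have hF : H659.Feet (TP w x₀) col (((TP w x₀).st col)^[F.t g₀] F.o) (nc M)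
    (fun k => F.t (g₀ + k) - F.t g₀) := F.base_feet g₀
  have hMn : H659.Main (TP w x₀) col (((TP w x₀).st col)^[F.t g₀] F.o)
    (fun k => F.t (g₀ + k) - F.t g₀) (F.bc g₀ 0) := F.base_main g₀
  have hrel := F.base_rel g₀
  have hP : (TP w x₀).Planar := H592.HullTri.planar258 _ _ _
  have hper : F.t (g₀ + nc M) = F.t g₀ + per (TP w x₀) col F.o := F.lt.per g₀
  have hp' : per (TP w x₀) col (((TP w x₀).st col)^[F.t g₀] F.o) = per (TP w x₀) col F.o :=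
    H871.per_iter _ _ _ _
  have hm1 : F.t g₀ ≤ F.t g₁ := F.lt.mono (by omega)
  have hm2 : F.t g₁ ≤ F.t g₂ := F.lt.mono (by omega)
  have hm3 : F.t g₂ ≤ F.t (g₀ + nc M) := F.lt.mono (by omega)
  obtain ⟨s₁, hs1n, hs1, -⟩ := hL.exists_cut (T1 := w.T) (tb := F.t g₁ - F.t g₀)
    (by rw [hp']; omega)
  obtain ⟨s₂, hs2n, hs2, -⟩ := hL.exists_cut (T1 := w.T) (tb := F.t g₂ - F.t g₀)
    (by rw [hp']; omega)
  -- a member in every three pieces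
  have hex : ∀ a : ℕ, a + 3 ≤ nc M → ∃ i < F.bn g₀, F.t (g₀ + a) - F.t g₀ ≤ F.bt g₀ i ∧
      F.bt g₀ i < F.t (g₀ + (a + 3)) - F.t g₀ := by
    intro a ha
    obtain ⟨m, h1⟩ := hF.exists_lm hP (k := a + 1) (by omega)
    obtain ⟨k0, m0, h2, h3⟩ := hMn
    have h4 := (TP w x₀).rel_trans ((TP w x₀).rel_symm h3) (hF.rel_lm h2 h1)
    obtain ⟨-, h5, h6, -, -⟩ := h1
    have h7 : F.t (g₀ + (a + 1 + 1)) ≤ F.t (g₀ + (a + 3)) := F.lt.mono (by omega)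
    have h8 : F.t (g₀ + (a + 3)) ≤ F.t (g₀ + nc M) := F.lt.mono (by omega)
    have h9 : F.t (g₀ + a) ≤ F.t (g₀ + (a + 1)) := F.lt.mono (by omega)
    have h10 : F.t g₀ ≤ F.t (g₀ + a) := F.lt.mono (by omega)
    simp only at h5 h6
    obtain ⟨i, hi, hie⟩ := hL.all m (by rw [hp']; omega) h4
    exact ⟨i, hi, by omega, by omega⟩
  refine ⟨s₁, s₂, ⟨hL, hF, hMn, hrel, ?_, ?_, ?_, hs1, hs2⟩⟩
  · obtain ⟨i, hi, h1, h2⟩ := hex 0 (by omega)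
    have h3 : F.t (g₀ + (0 + 3)) ≤ F.t g₁ := F.lt.mono (by omega)
    have := (hs1 i hi).2 (by omega)
    omega
  · obtain ⟨i, hi, h1, h2⟩ := hex (g₁ - g₀) (by omega)
    have h3 : F.t (g₀ + (g₁ - g₀ + 3)) ≤ F.t g₂ := F.lt.mono (by omega)
    have h4 : F.t g₁ ≤ F.t (g₀ + (g₁ - g₀)) := F.lt.mono (by omega)
    have h5 := (hs2 i hi).2 (by omega)
    have h6 : ¬ i < s₁ := fun hh => by
      have := (hs1 i hi).1 hh
      omega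
    omega
  · obtain ⟨i, hi, h1, h2⟩ := hex (g₂ - g₀) (by omega)
    have h4 : F.t g₂ ≤ F.t (g₀ + (g₂ - g₀)) := F.lt.mono (by omega)
    have h6 : ¬ i < s₂ := fun hh => by
      have := (hs2 i hi).1 hh
      omega
    omega

/-! ### the scene -/

section scene

open Vale.Agent.P148.R2.H592 (HullTri)
open Vale.Agent.P148.R2.H678 (cw wd)
open Vale.Agent.P148.R2.H995 (nsup Zn calT)

theorem ag_bg (h01 : g₀ + 5 ≤ g₁) (h12 : g₁ + 5 ≤ g₂) (h20 : g₂ + 5 ≤ g₀ + nc M) (γ : Fin 3) :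
    g₀ ≤ ag g₀ g₁ g₂ γ ∧ ag g₀ g₁ g₂ γ + 5 ≤ bg M g₀ g₁ g₂ γ ∧
      bg M g₀ g₁ g₂ γ + 4 ≤ ag g₀ g₁ g₂ γ + nc M := by
  have hj : γ = 0 ∨ γ = 1 ∨ γ = 2 := (by decide : ∀ j : Fin 3, j = 0 ∨ j = 1 ∨ j = 2) γ
  obtain ⟨e1, e2⟩ := win_gates (M := M) (g₀ := g₀) (g₁ := g₁) (g₂ := g₂) (by omega) (by omega) γ
  rcases hj with rfl | rfl | rfl <;> simp only [win] at e1 e2 <;> omega

variable {X : Set ℂ} {b : ZMod 3 → ℂ} [Fintype X]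

/-- **The dichotomy on the scene of the comb.** -/
theorem dich_scene (hM : 0 < M) (h : HullTri X b) (hfar : ∀ j, 1 + 2 * ms M ≤ nsup (b j))
    {c₁ c₂ : X → Bool} (hA : (H172.combLaw hM X (Subtype.val : X → ℂ)).A0 c₁ c₂)
    (hX : (X ∩ Metric.ball (0 : ℂ) (1 / 2)).Nonempty) {x₀ : (wd h M (cw M c₁ c₂)).X}
    {F : Frame M (wd h M (cw M c₁ c₂)) x₀ (cw M c₁ c₂)} {n s₁ s₂ : ℕ}
    {c : ℕ → (wd h M (cw M c₁ c₂)).D} {tm : ℕ → ℕ} (hm : Mrk F g₀ g₁ g₂ n s₁ s₂ c tm)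
    {O3 : Fin 3 → Set ℂ} {h3 : Three3 X (wd h M (cw M c₁ c₂)).B O3}
    (hW : W3 (TP (wd h M (cw M c₁ c₂)) x₀) (TC h h3) (piX (wd h M (cw M c₁ c₂)))
      (wd h M (cw M c₁ c₂)).O (cw M c₁ c₂) c n s₁ s₂ (fun j => {v : X | v.1 ∈ O3 j})
      (pi3 X O3) Sum.inl)
    (h01 : g₀ + 5 ≤ g₁) (h12 : g₁ + 5 ≤ g₂) (h20 : g₂ + 5 ≤ g₀ + nc M) {r : ℝ}
    (hr : 7 * ms M ≤ r) (γ : Fin 3) {Z' : Set X}
    (hZ : Zn M X (ag g₀ g₁ g₂ γ) (bg M g₀ g₁ g₂ γ) r ⊆ Z') (c₃ : X → Bool) :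
    Dich (TP (wd h M (cw M c₁ c₂)) x₀) (TC h h3) (piX (wd h M (cw M c₁ c₂)))
      (wd h M (cw M c₁ c₂)).O c n s₁ s₂ (pi3 X O3) Sum.inl (patt X O3 γ c₃)
      (qd (TC h h3) (c (s₁ - 1)) γ) (γ + 1) (γ + 2) γ
      (Zn M X (ag g₀ g₁ g₂ γ) (bg M g₀ g₁ g₂ γ) r) Z'
      (calT M X (ag g₀ g₁ g₂ γ) (bg M g₀ g₁ g₂ γ) c₁ c₂ c₃) := by
  obtain ⟨a1, a2, a3⟩ := ag_bg (M := M) h01 h12 h20 γ
  exact dich_qd (w := wd h M (cw M c₁ c₂)) (F := F) hm hW (by omega) (by omega) (by omega) hZ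
    (H995.mark_scene hM h hfar hA F c₃ a1 a2 a3 hr)
    (fun v hv hv' => H995.calT_fresh hM h hfar hA hX c₃ hr hv hv')

end scene

end Vale.Agent.P148.R2.H897
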