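import Vale.Agent.P148.R2.H897.CalInst3
import Vale.Agent.P148.R2.H959.Edg
import Vale.Agent.P148.R2.H172.Sc5

/-!
# Row CAL: the data of one world of the scene

`world_data` : for the scene of the comb on the sites of `T` (`SiteOK T 9 (ms M / 1000)`), a good pair
of colourings and a frame: the marks `mk0`, `mk1`, `mk2` (`m = 5`) on the chosen base of the frame,
the positions of the arcs, the three-class world, the dichotomy for the three patterns and all third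
colourings, and the bound for the positions.
-/

namespace Vale.Agent.P148.R2.H897

open Function Vale.Agent.P148.R2.H258 Vale.Agent.P148.R2.H258.Tri Vale.Agent.P148.R2.H659
  Vale.Agent.P148.R2.H871 Vale.Agent.P148.R2.H953 Vale.Agent.P148.R2.H838
  Vale.Agent.P148.R2.H251 Vale.Agent.P148.R2.H565
open Vale.Agent.P148.R2.N (ms nc ms_pos)
open Vale.Agent.P148.R2.H566 (W0)
open Vale.Agent.P148.R2.H609 (TP piX)
open Vale.Agent.P148.R2.H172 (Frame)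
open Vale.Agent.P148.R2.H959 (Mrk ag bg mk0 mk1 mk2)
open Vale.Agent.P148.R2.H592 (HullTri)
open Vale.Agent.P148.R2.H678 (cw wd)
open Vale.Agent.P148.R2.H995 (nsup Zn calT)
open Vale.Agent.P148.R2.H291 (site bR SiteOK)
open _root_.P148 _root_.P148.H729

variable {M : ℕ}

/-- The members of the main cycle are in the square of half side `2`. -/
theorem mrk_pos (hM : 0 < M) {w : W0} {x₀ : w.X} {col : w.X → Bool} {F : Frame M w x₀ col}
    {g₀ g₁ g₂ n s₁ s₂ : ℕ} {c : ℕ → w.D} {tm : ℕ → ℕ} (hm : Mrk F g₀ g₁ g₂ n s₁ s₂ c tm) {i : ℕ}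
    (hi : i < n) : ‖((TP w x₀).src (c i)).1‖ ≤ 4 := by
  obtain ⟨k, -, -, -, -, h1, -⟩ := hm.piece hi
  have h2 := (H959.reg_nsup hM h1).2
  have h3 : ms M ≤ 1 := N.ms_le_one
  set z := ((TP w x₀).src (c i)).1
  have h4 : ‖z‖ ≤ |z.re| + |z.im| := Complex.norm_le_abs_re_add_abs_im z
  have h5 : |z.re| ≤ nsup z := le_max_left _ _
  have h6 : |z.im| ≤ nsup z := le_max_right _ _
  linarith

/-- **The data of one world.** -/
theorem world_data {T : Set Pt} (hS : SiteOK T 9 (ms M / 1000)) [Fintype (site T 9)]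
    (hM0 : 0 < M) (hM : 4 ≤ M) {c₁ c₂ : site T 9 → Bool}
    (hA : (H172.combLaw hM0 (site T 9) (Subtype.val : site T 9 → ℂ)).A0 c₁ c₂)
    {x₀ : (wd hS.hull M (cw M c₁ c₂)).X}
    (F : Frame M (wd hS.hull M (cw M c₁ c₂)) x₀ (cw M c₁ c₂)) :
    ∃ s₁ s₂, ∃ (O3 : Fin 3 → Set ℂ) (h3 : Three3 (site T 9) (wd hS.hull M (cw M c₁ c₂)).B O3),
      Mrk F (mk0 M 5) (mk1 M 5) (mk2 M 5) (F.bn (mk0 M 5)) s₁ s₂ (F.bc (mk0 M 5))
        (F.bt (mk0 M 5)) ∧
      ArcPos (TP (wd hS.hull M (cw M c₁ c₂)) x₀) (F.bc (mk0 M 5)) (F.bn (mk0 M 5)) s₁ s₂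
        (fun v => v.1 + (1 + Complex.I)) 2 (((5 : ℕ) + 1) * ms M) ∧
      W3 (TP (wd hS.hull M (cw M c₁ c₂)) x₀) (TC hS.hull h3) (piX (wd hS.hull M (cw M c₁ c₂)))
        (wd hS.hull M (cw M c₁ c₂)).O (cw M c₁ c₂) (F.bc (mk0 M 5)) (F.bn (mk0 M 5)) s₁ s₂
        (fun j => {v : site T 9 | v.1 ∈ O3 j}) (pi3 (site T 9) O3) Sum.inl ∧
      (∀ (γ : Fin 3) {r : ℝ}, 7 * ms M ≤ r → ∀ Z' : Set (site T 9),
        Zn M (site T 9) (ag (mk0 M 5) (mk1 M 5) (mk2 M 5) γ)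
          (bg M (mk0 M 5) (mk1 M 5) (mk2 M 5) γ) r ⊆ Z' → ∀ c₃ : site T 9 → Bool,
        Dich (TP (wd hS.hull M (cw M c₁ c₂)) x₀) (TC hS.hull h3)
          (piX (wd hS.hull M (cw M c₁ c₂))) (wd hS.hull M (cw M c₁ c₂)).O (F.bc (mk0 M 5))
          (F.bn (mk0 M 5)) s₁ s₂ (pi3 (site T 9) O3) Sum.inl (patt (site T 9) O3 γ c₃)
          (qd (TC hS.hull h3) (F.bc (mk0 M 5) (s₁ - 1)) γ) (γ + 1) (γ + 2) γ
          (Zn M (site T 9) (ag (mk0 M 5) (mk1 M 5) (mk2 M 5) γ)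
            (bg M (mk0 M 5) (mk1 M 5) (mk2 M 5) γ) r) Z'
          (calT M (site T 9) (ag (mk0 M 5) (mk1 M 5) (mk2 M 5) γ)
            (bg M (mk0 M 5) (mk1 M 5) (mk2 M 5) γ) c₁ c₂ c₃)) ∧
      ∀ i < F.bn (mk0 M 5), ∀ j < F.bn (mk0 M 5),
        ‖((((TP (wd hS.hull M (cw M c₁ c₂)) x₀).src (F.bc (mk0 M 5) j)).1 + (1 + Complex.I)) -
          ((((TP (wd hS.hull M (cw M c₁ c₂)) x₀).src (F.bc (mk0 M 5) i)).1 +
            (1 + Complex.I)) : ℂ))‖ ≤ 8 := by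
  have h0 := ms_pos hM0
  have h01 : mk0 M 5 + 8 ≤ mk1 M 5 := by unfold mk0 mk1; omega
  have h12 : mk1 M 5 + 8 ≤ mk2 M 5 := by unfold mk1 mk2; omega
  have h20 : mk2 M 5 + 8 ≤ mk0 M 5 + nc M := by unfold mk0 mk2 nc; omega
  have hR : (5 : ℝ) ≤ 9 := by norm_num
  have hE := H959.edges_site hS hR hM0 (by linarith) hA
  have hI := (H678.wd_site hS (by norm_num) hM0 hA).conn_I
  obtain ⟨s₁, s₂, hm⟩ := mrk_base F (g₀ := mk0 M 5) (g₁ := mk1 M 5) (g₂ := mk2 M 5) (by omega)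
    (by omega) (by omega)
  obtain ⟨O3, h3, hW⟩ := hm.exists_W3 hM0 hE hI h01 h12 h20
  have hp := hm.arcPos hM0 (by omega)
  refine ⟨s₁, s₂, O3, h3, hm, hp, hW, fun γ r hr Z' hZ c₃ => ?_, fun i hi j hj => ?_⟩
  · refine dich_scene hM0 hS.hull (H678.far_site hS (by norm_num)) hA ?_ hm hW (by omega)
      (by omega) (by omega) hr γ hZ c₃
    exact H678.center_site hS
  · have h1 := mrk_pos hM0 hm hi
    have h2 := mrk_pos hM0 hm hj
    rw [add_sub_add_right_eq_sub]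
    exact (norm_sub_le _ _).trans (by linarith)

end Vale.Agent.P148.R2.H897
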